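import Mathlib

/-!
Helper lemmas for P226 (Gaussian first moments of cells of a measurable family).
-/

open MeasureTheory ProbabilityTheory
open scoped RealInnerProductSpace NNReal

namespace Vale.Agent.Lib.P226

variable {E : Type*} [NormedAddCommGroup E] [InnerProductSpace ℝ E] [FiniteDimensional ℝ E]
  [MeasurableSpace E] [BorelSpace E]

/-- The law of a linear functional `x ↦ ⟪z, x⟫` under the standard Gaussian measure. -/
lemma map_inner_stdGaussian (z : E) :
    (stdGaussian E).map (fun x => ⟪z, x⟫)
      = gaussianReal 0 (Real.toNNReal (‖z‖ ^ 2)) := by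
  have h := IsGaussian.map_eq_gaussianReal (μ := stdGaussian E)
    (innerSL ℝ z)
  rw [integral_strongDual_stdGaussian, variance_dual_stdGaussian, innerSL_apply_norm] at h
  exact h

lemma sq_norm_setIntegral_eq (A : Set E) :
    ‖∫ x in A, x ∂(stdGaussian E)‖ ^ 2
      = ∫ x in A, ⟪∫ y in A, y ∂(stdGaussian E), x⟫
          ∂(stdGaussian E) := by
  set γ := stdGaussian E
  set z := ∫ x in A, x ∂γ with hz
  have hint : Integrable (fun x : E => x) (γ.restrict A) :=
    (IsGaussian.integrable_id (μ := γ)).restrict
  have h := ContinuousLinearMap.integral_comp_comm (innerSL ℝ z) hint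
  simp only [innerSL_apply_apply] at h
  rw [h, ← hz, real_inner_self_eq_norm_sq]

/-- Master inequality: if `y ≤ c + f y` with `f ≥ 0`, then the squared norm of the first moment
`z` of a cell `A` is at most `c * γ(A) + E f(N(0, ‖z‖²))`. -/
lemma cell_bound (A : Set E)
    (c : ℝ) (f : ℝ → ℝ) (hf : Measurable f) (hf0 : ∀ y, 0 ≤ f y) (hle : ∀ y, y ≤ c + f y)
    (hint : Integrable f (gaussianReal 0 (Real.toNNReal
      (‖∫ x in A, x ∂(stdGaussian E)‖ ^ 2)))) :
    ‖∫ x in A, x ∂(stdGaussian E)‖ ^ 2
      ≤ c * (stdGaussian E).real A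
        + ∫ y, f y ∂(gaussianReal 0 (Real.toNNReal
            (‖∫ x in A, x ∂(stdGaussian E)‖ ^ 2))) := by
  set γ := stdGaussian E
  set z := ∫ x in A, x ∂γ with hz
  have hmap := map_inner_stdGaussian z
  have hmeas : Measurable (fun x : E => ⟪z, x⟫) := by fun_prop
  have hintf : Integrable (fun x : E => f ⟪z, x⟫) γ := by
    have : Integrable f (γ.map (fun x => ⟪z, x⟫)) := by rw [hmap]; exact hint
    exact (integrable_map_measure hf.aestronglyMeasurable hmeas.aemeasurable).1 this
  have hintL : Integrable (fun x : E => ⟪z, x⟫) γ :=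
    IsGaussian.integrable_dual γ (innerSL ℝ z)
  have h0 := sq_norm_setIntegral_eq A
  rw [← hz] at h0
  calc ‖z‖ ^ 2 = ∫ x in A, ⟪z, x⟫ ∂γ := h0
    _ ≤ ∫ x in A, (c + f ⟪z, x⟫) ∂γ := by
        apply setIntegral_mono hintL.integrableOn
        · exact ((integrable_const c).add hintf).integrableOn
        · intro x; exact hle _
    _ = c * γ.real A + ∫ x in A, f ⟪z, x⟫ ∂γ := by
        rw [integral_add (integrable_const c).integrableOn hintf.integrableOn]
        simp [mul_comm]
    _ ≤ c * γ.real A + ∫ x, f ⟪z, x⟫ ∂γ := by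
        have := setIntegral_le_integral (s := A) hintf (Filter.Eventually.of_forall fun x => hf0 _)
        linarith
    _ = c * γ.real A + ∫ y, f y ∂(gaussianReal 0 (Real.toNNReal (‖z‖ ^ 2))) := by
        rw [← hmap, integral_map hmeas.aemeasurable hf.aestronglyMeasurable]

/-- Second moment of the positive part of a centred Gaussian. -/
lemma integral_posPart_sq_gaussianReal (v : ℝ≥0) :
    ∫ y, (max y 0) ^ 2 ∂(gaussianReal 0 v) = v / 2 := by
  have hsq : Integrable (fun y : ℝ => y ^ 2) (gaussianReal 0 v) := by
    have := (memLp_id_gaussianReal (μ := 0) (v := v) 2).integrable_sq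
    simpa using this
  have h2 : ∫ y, y ^ 2 ∂(gaussianReal 0 v) = v := by
    have h := variance_id_gaussianReal (μ := 0) (v := v)
    rw [variance_eq_integral measurable_id.aemeasurable] at h
    simpa using h
  have hpos : Integrable (fun y : ℝ => (max y 0) ^ 2) (gaussianReal 0 v) := by
    refine hsq.mono' (by fun_prop) (Filter.Eventually.of_forall fun y => ?_)
    rw [Real.norm_eq_abs, abs_of_nonneg (by positivity)]
    rcases le_total y 0 with h | h
    · rw [max_eq_right h]; nlinarith
    · rw [max_eq_left h]
  have hneg : ∫ y, (max (-y) 0) ^ 2 ∂(gaussianReal 0 v) = ∫ y, (max y 0) ^ 2 ∂(gaussianReal 0 v) := by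
    have hm := gaussianReal_map_neg (μ := 0) (v := v)
    rw [neg_zero] at hm
    conv_rhs => rw [← hm]
    rw [integral_map (by fun_prop) (by fun_prop)]
  have hneg' : Integrable (fun y : ℝ => (max (-y) 0) ^ 2) (gaussianReal 0 v) := by
    refine hsq.mono' (by fun_prop) (Filter.Eventually.of_forall fun y => ?_)
    rw [Real.norm_eq_abs, abs_of_nonneg (by positivity)]
    rcases le_total y 0 with h | h
    · rw [max_eq_left (by linarith)]; simp
    · rw [max_eq_right (by linarith)]; nlinarith
  have hsum : ∫ y, (max y 0) ^ 2 ∂(gaussianReal 0 v) + ∫ y, (max (-y) 0) ^ 2 ∂(gaussianReal 0 v)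
      = ∫ y, y ^ 2 ∂(gaussianReal 0 v) := by
    rw [← integral_add hpos hneg']
    congr 1
    ext y
    rcases le_total y 0 with h | h
    · rw [max_eq_right h, max_eq_left (by linarith)]; ring
    · rw [max_eq_left h, max_eq_right (by linarith)]; ring
  rw [hneg, h2] at hsum
  linarith

/-- Each cell satisfies `‖z(A)‖² ≤ γ(A) / 2`. -/
lemma sq_norm_le_half_measure (A : Set E) :
    ‖∫ x in A, x ∂(stdGaussian E)‖ ^ 2
      ≤ (stdGaussian E).real A / 2 := by
  set γ := stdGaussian E
  set z := ∫ x in A, x ∂γ with hz
  have hsq : Integrable (fun y : ℝ => y ^ 2) (gaussianReal 0 (Real.toNNReal (‖z‖ ^ 2))) := by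
    have := (memLp_id_gaussianReal (μ := 0) (v := Real.toNNReal (‖z‖ ^ 2)) 2).integrable_sq
    simpa using this
  have hpos : Integrable (fun y : ℝ => (max y 0) ^ 2) (gaussianReal 0 (Real.toNNReal (‖z‖ ^ 2))) := by
    refine hsq.mono' (by fun_prop) (Filter.Eventually.of_forall fun y => ?_)
    rw [Real.norm_eq_abs, abs_of_nonneg (by positivity)]
    rcases le_total y 0 with h | h
    · rw [max_eq_right h]; nlinarith
    · rw [max_eq_left h]
  have key := cell_bound A (1 / 4) (fun y => (max y 0) ^ 2) (by fun_prop)
    (fun y => by positivity) (fun y => by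
      rcases le_total y 0 with h | h
      · rw [max_eq_right h]; nlinarith
      · rw [max_eq_left h]; nlinarith [sq_nonneg (y - 1 / 2)]) hpos
  rw [integral_posPart_sq_gaussianReal, Real.coe_toNNReal _ (by positivity)] at key
  rw [← hz] at key
  linarith

/-- Level-one inequality for a cell: `‖z(A)‖² ≤ 2 γ(A)² log (1 / γ(A))`. -/
lemma sq_norm_le_level_one (A : Set E) :
    ‖∫ x in A, x ∂(stdGaussian E)‖ ^ 2
      ≤ 2 * (stdGaussian E).real A ^ 2
          * Real.log (1 / (stdGaussian E).real A) := by
  set γ := stdGaussian E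
  set z := ∫ x in A, x ∂γ with hz
  set p := γ.real A with hp
  have hp0 : 0 ≤ p := measureReal_nonneg
  rcases hp0.eq_or_lt with hp0 | hppos
  · -- null cell: the first moment vanishes
    have hnull : γ A = 0 := by
      have h1 : γ.real A = 0 := by rw [← hp, ← hp0]
      exact (measureReal_eq_zero_iff (measure_ne_top γ A)).1 h1
    have hz0 : z = 0 := by
      rw [hz, Measure.restrict_eq_zero.2 hnull, integral_zero_measure]
    rw [hz0, ← hp0]; simp
  · set w := ‖z‖ ^ 2 with hw
    have hw0 : 0 ≤ w := by positivity
    set lam : ℝ := 1 / p with hlam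
    have hlampos : 0 < lam := by positivity
    set a : ℝ := w * lam ^ 2 / 2 + Real.log (1 / p) with ha
    have hintexp : Integrable (fun y : ℝ => Real.exp (lam * y))
        (gaussianReal 0 (Real.toNNReal w)) := integrable_exp_mul_gaussianReal lam
    have hint : Integrable (fun y : ℝ => Real.exp (lam * y - a) / lam)
        (gaussianReal 0 (Real.toNNReal w)) := by
      have := (hintexp.mul_const (Real.exp (-a))).div_const lam
      refine this.congr (Filter.Eventually.of_forall fun y => ?_)
      simp only
      rw [sub_eq_add_neg, Real.exp_add]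
    have key := cell_bound A ((a - 1) / lam) (fun y => Real.exp (lam * y - a) / lam)
      (by fun_prop) (fun y => by positivity) (fun y => by
        have h1 := Real.add_one_le_exp (lam * y - a)
        have h2 : lam * y ≤ (a - 1) + Real.exp (lam * y - a) := by linarith
        have h3 : y = lam * y / lam := by field_simp
        have h4 := div_le_div_of_nonneg_right h2 hlampos.le
        rw [← h3, add_div] at h4
        exact h4) hint
    have hmgf : ∫ y, Real.exp (lam * y) ∂(gaussianReal 0 (Real.toNNReal w))
        = Real.exp (w * lam ^ 2 / 2) := by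
      have h := congrFun (mgf_id_gaussianReal (μ := 0) (v := Real.toNNReal w)) lam
      simp only [mgf, id] at h
      rw [h, Real.coe_toNNReal _ hw0]
      ring_nf
    have hval : ∫ y, Real.exp (lam * y - a) / lam ∂(gaussianReal 0 (Real.toNNReal w)) = p / lam := by
      have h1 : (fun y : ℝ => Real.exp (lam * y - a) / lam)
          = fun y => Real.exp (lam * y) * (Real.exp (-a) / lam) := by
        ext y
        rw [sub_eq_add_neg, Real.exp_add]; ring
      rw [h1, integral_mul_const, hmgf]
      have h2 : Real.exp (w * lam ^ 2 / 2) * Real.exp (-a) = p := by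
        rw [← Real.exp_add, ha]
        have : w * lam ^ 2 / 2 + -(w * lam ^ 2 / 2 + Real.log (1 / p)) = Real.log p := by
          rw [one_div, Real.log_inv]; ring
        rw [this, Real.exp_log hppos]
      rw [← mul_div_assoc, h2]
    rw [hval, ← hz, ← hw, ← hp] at key
    -- key : w ≤ (a - 1) / lam * p + p / lam, with lam = 1 / p
    have hlam' : 1 / lam = p := by rw [hlam]; field_simp
    have key2 : w ≤ (a - 1) * p * p + p * p := by
      have e1 : (a - 1) / lam * p = (a - 1) * p * p := by
        rw [div_eq_mul_one_div, hlam']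
      have e2 : p / lam = p * p := by rw [div_eq_mul_one_div, hlam']
      rw [e1, e2] at key; exact key
    have ha' : a = w / (2 * p ^ 2) + Real.log (1 / p) := by
      rw [ha, hlam]; field_simp
    have hwp : w / (2 * p ^ 2) * p * p = w / 2 := by field_simp
    have : w ≤ w / 2 + Real.log (1 / p) * p * p := by
      have : (a - 1) * p * p + p * p = w / (2 * p ^ 2) * p * p + Real.log (1 / p) * p * p := by
        rw [ha']; ring
      linarith
    nlinarith

/-- The Gaussian measures of pairwise disjoint measurable cells add up to at most one. -/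
lemma sum_measureReal_le_one {ι : Type*} [Fintype ι] (A : ι → Set E)
    (hmeas : ∀ i, MeasurableSet (A i))
    (hdisj : Pairwise (fun i j => Disjoint (A i) (A j))) :
    ∑ i, (stdGaussian E).real (A i) ≤ 1 := by
  set γ := stdGaussian E
  have h := measureReal_biUnion_finset (μ := γ) (s := Finset.univ) (f := A)
    (fun i _ j _ hij => hdisj hij) (fun i _ => hmeas i)
  rw [← h]
  exact measureReal_le_one

end Vale.Agent.Lib.P226
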