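import Vale.Agent.Lib.P226.TailPoly

/-!
Numerical bounds for `hfun`: `s * hfun s ≤ 81 / 800` for all `s > 0`.
-/

open MeasureTheory ProbabilityTheory Set Filter
open scoped NNReal Topology

namespace Vale.Agent.Lib.P226

lemma phi0_le : phi0 ≤ 0.398943 := by
  unfold phi0
  have hpi := Real.pi_gt_d6
  have h1 : (1 / 0.398943 : ℝ) ≤ Real.sqrt (2 * Real.pi) := by
    rw [Real.le_sqrt' (by norm_num)]
    norm_num
    linarith
  have h2 : (0 : ℝ) < 1 / 0.398943 := by norm_num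
  have h3 := inv_anti₀ h2 h1
  have e : ((1 / 0.398943 : ℝ))⁻¹ = 0.398943 := by norm_num
  rw [e] at h3
  exact h3

lemma phi0_sq : phi0 ^ 2 = 1 / (2 * Real.pi) := by
  unfold phi0
  rw [inv_pow, Real.sq_sqrt (by positivity), one_div]

lemma hfun_zero : hfun 0 = phi0 := by
  have h := hfun_eq (s := 0) le_rfl
  simpa using h

lemma hgrid0 : hfun 0 ≤ 0.398943 := by
  rw [hfun_zero]; exact phi0_le

lemma hfun_le_num {s q H : ℝ} (hs : 0 ≤ s) (hq0 : 0 ≤ q)
    (hq : 1 + s ^ 2 / 2 - s ^ 4 / 24 + s ^ 6 / 240 - s ^ 8 / 2688 + s ^ 10 / 34560 ≤ q)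
    (hH : 0.398943 * q - s / 2 ≤ H) : hfun s ≤ H := by
  have h := hfun_le_poly hs
  have hp := phi0_le
  have hp0 := phi0_pos
  have h1 : phi0 * (1 + s ^ 2 / 2 - s ^ 4 / 24 + s ^ 6 / 240 - s ^ 8 / 2688 + s ^ 10 / 34560)
      ≤ phi0 * q := mul_le_mul_of_nonneg_left hq hp0.le
  have h2 : phi0 * q ≤ 0.398943 * q := mul_le_mul_of_nonneg_right hp hq0
  linarith

lemma chord_num {a b Ha Hb s : ℝ} (hab : a < b) (ha : hfun a ≤ Ha) (hb : hfun b ≤ Hb)
    (has : a ≤ s) (hsb : s ≤ b) :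
    hfun s ≤ ((b - s) * Ha + (s - a) * Hb) / (b - a) := by
  have h := hfun_chord hab has hsb
  have hba : 0 < b - a := by linarith
  refine h.trans ?_
  apply div_le_div_of_nonneg_right _ hba.le
  have h1 : (b - s) * hfun a ≤ (b - s) * Ha := mul_le_mul_of_nonneg_left ha (by linarith)
  have h2 : (s - a) * hfun b ≤ (s - a) * Hb := mul_le_mul_of_nonneg_left hb (by linarith)
  linarith

lemma hgrid1 : hfun 0.545 ≤ 0.18426695 :=
  hfun_le_num (q := 1.14494287) (by norm_num) (by norm_num) (by norm_num) (by norm_num)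
lemma hgrid2 : hfun 0.605 ≤ 0.16730648 :=
  hfun_le_num (q := 1.17762808) (by norm_num) (by norm_num) (by norm_num) (by norm_num)
lemma hgrid3 : hfun 0.635 ≤ 0.1592774 :=
  hfun_le_num (q := 1.19510155) (by norm_num) (by norm_num) (by norm_num) (by norm_num)
lemma hgrid4 : hfun 0.81 ≤ 0.11810414 :=
  hfun_le_num (q := 1.31122524) (by norm_num) (by norm_num) (by norm_num) (by norm_num)
lemma hgrid5 : hfun 1.7 ≤ 0.01867879 :=
  hfun_le_num (q := 2.17745088) (by norm_num) (by norm_num) (by norm_num) (by norm_num)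

lemma hfun_107 : hfun 1.07 ≤ 0.0728 :=
  hfun_le_num (q := 1.52350426) (by norm_num) (by norm_num) (by norm_num) (by norm_num)

lemma seg0 {s : ℝ} (h1 : 0 ≤ s) (h2 : s ≤ 0.545) : s * hfun s ≤ 81 / 800 := by
  have hL := chord_num (by norm_num) hgrid0 hgrid1 h1 h2
  have hs0 : 0 ≤ s := by linarith
  have hm := mul_le_mul_of_nonneg_left hL hs0
  norm_num at hm
  nlinarith [sq_nonneg (s - 0.506)]

lemma seg1 {s : ℝ} (h1 : 0.545 ≤ s) (h2 : s ≤ 0.605) : s * hfun s ≤ 81 / 800 := by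
  have hL := chord_num (by norm_num) hgrid1 hgrid2 h1 h2
  have hs0 : 0 ≤ s := by linarith
  have hm := mul_le_mul_of_nonneg_left hL hs0
  norm_num at hm
  nlinarith [sq_nonneg (s - 0.598)]

lemma seg2 {s : ℝ} (h1 : 0.605 ≤ s) (h2 : s ≤ 0.635) : s * hfun s ≤ 81 / 800 := by
  have hL := chord_num (by norm_num) hgrid2 hgrid3 h1 h2
  have hs0 : 0 ≤ s := by linarith
  have hm := mul_le_mul_of_nonneg_left hL hs0
  norm_num at hm
  nlinarith [sq_nonneg (s - 0.615)]

lemma seg3 {s : ℝ} (h1 : 0.635 ≤ s) (h2 : s ≤ 0.81) : s * hfun s ≤ 81 / 800 := by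
  have hL := chord_num (by norm_num) hgrid3 hgrid4 h1 h2
  have hs0 : 0 ≤ s := by linarith
  have hm := mul_le_mul_of_nonneg_left hL hs0
  norm_num at hm
  nlinarith [sq_nonneg (s - 0.656)]

lemma seg4 {s : ℝ} (h1 : 0.81 ≤ s) (h2 : s ≤ 1.7) : s * hfun s ≤ 81 / 800 := by
  have hL := chord_num (by norm_num) hgrid4 hgrid5 h1 h2
  have hs0 : 0 ≤ s := by linarith
  have hm := mul_le_mul_of_nonneg_left hL hs0
  norm_num at hm
  nlinarith [sq_nonneg (s - 0.934)]

lemma seg5 {s : ℝ} (h1 : 1.7 ≤ s) : s * hfun s ≤ 81 / 800 := by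
  have hs : 0 < s := by linarith
  have h := hfun_chernoff hs
  refine h.trans ?_
  have hmono : Real.exp (-(1 + s ^ 2 / 2)) ≤ Real.exp (-(2.445 : ℝ)) := by
    apply Real.exp_le_exp.2
    nlinarith
  refine hmono.trans ?_
  rw [Real.exp_neg]
  have h5 := Real.sum_le_exp_of_nonneg (by norm_num : (0 : ℝ) ≤ 2.445) 5
  simp only [Finset.sum_range_succ, Finset.sum_range_zero, Nat.factorial] at h5
  norm_num at h5
  have hpos : (0 : ℝ) < 800 / 81 := by norm_num
  have h6 : (800 / 81 : ℝ) ≤ Real.exp 2.445 := by linarith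
  have h7 := inv_anti₀ hpos h6
  have e : ((800 / 81 : ℝ))⁻¹ = 81 / 800 := by norm_num
  rw [e] at h7
  exact h7

/-- The key numerical fact: `s * E (g - s)₊ ≤ 81 / 800` for every `s > 0`. -/
lemma s_mul_hfun_le {s : ℝ} (hs : 0 < s) : s * hfun s ≤ 81 / 800 := by
  rcases le_total s 0.545 with h1 | h1
  · exact seg0 hs.le h1
  rcases le_total s 0.605 with h2 | h2
  · exact seg1 h1 h2
  rcases le_total s 0.635 with h3 | h3
  · exact seg2 h2 h3
  rcases le_total s 0.81 with h4 | h4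
  · exact seg3 h3 h4
  rcases le_total s 1.7 with h5 | h5
  · exact seg4 h4 h5
  · exact seg5 h5

end Vale.Agent.Lib.P226
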