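import Vale.Agent.Lib.P226.Basic
import Vale.Agent.Lib.P226.Numeric

/-!
Sharp first-moment bound for a single cell and its consequences.
-/

open MeasureTheory ProbabilityTheory Set Filter
open scoped RealInnerProductSpace NNReal

namespace Vale.Agent.Lib.P226

variable {E : Type*} [NormedAddCommGroup E] [InnerProductSpace ℝ E] [FiniteDimensional ℝ E]
  [MeasurableSpace E] [BorelSpace E]

lemma integrable_posPart_gaussianReal (v : ℝ≥0) (c : ℝ) :
    Integrable (fun y : ℝ => max (y - c) 0) (gaussianReal 0 v) := by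
  have hmem : MemLp (id : ℝ → ℝ) 1 (gaussianReal 0 v) := by
    simpa using memLp_id_gaussianReal (μ := 0) (v := v) 1
  have hid' : Integrable (id : ℝ → ℝ) (gaussianReal 0 v) := memLp_one_iff_integrable.1 hmem
  have hid : Integrable (fun x : ℝ => x) (gaussianReal 0 v) := hid'
  refine (hid.norm.add (integrable_const |c|)).mono' (by fun_prop)
    (Eventually.of_forall fun x => ?_)
  rw [Real.norm_eq_abs, abs_of_nonneg (le_max_right _ _)]
  simp only [Real.norm_eq_abs]
  have h1 : x - c ≤ |x| + |c| := by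
    have := le_abs_self x
    have := neg_abs_le c
    linarith
  have h2 : (0 : ℝ) ≤ |x| + |c| := by positivity
  exact max_le h1 h2

/-- Scaling: `E (σ g - t σ)₊ = σ E (g - t)₊` for `σ ≥ 0`. -/
lemma integral_posPart_scaled {σ : ℝ} (hσ : 0 ≤ σ) (t : ℝ) :
    ∫ y, max (y - t * σ) 0 ∂(gaussianReal 0 (Real.toNNReal (σ ^ 2))) = σ * hfun t := by
  have hmap : (gaussianReal 0 1).map (fun x => σ * x)
      = gaussianReal 0 (Real.toNNReal (σ ^ 2)) := by
    rw [gaussianReal_map_const_mul (μ := 0) (v := 1) σ]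
    congr 1
    · simp
    · ext
      simp [Real.coe_toNNReal _ (sq_nonneg σ)]
  rw [← hmap, integral_map (by fun_prop) (by fun_prop)]
  unfold hfun
  rw [← integral_const_mul]
  congr 1
  funext x
  rcases le_total (x - t) 0 with h | h
  · rw [max_eq_right h, max_eq_right (by nlinarith)]; simp
  · rw [max_eq_left h, max_eq_left (by nlinarith)]; ring

/-- Sharp cell bound in dual form: `‖z(A)‖ ≤ t γ(A) + E (g - t)₊` for every `t ≥ 0`. -/
lemma norm_le_mul_add_hfun (A : Set E) {t : ℝ} (ht : 0 ≤ t) :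
    ‖∫ x in A, x ∂(stdGaussian E)‖
      ≤ t * (stdGaussian E).real A + hfun t := by
  set γ := stdGaussian E
  set z := ∫ x in A, x ∂γ with hz
  have hp0 : 0 ≤ γ.real A := measureReal_nonneg
  have hh0 := hfun_nonneg t
  rcases (norm_nonneg z).eq_or_lt with h0 | hpos
  · rw [← h0]; positivity
  · have key := cell_bound A (t * ‖z‖) (fun y => max (y - t * ‖z‖) 0) (by fun_prop)
      (fun y => le_max_right _ _) (fun y => by
        have := le_max_left (y - t * ‖z‖) 0
        linarith)
      (integrable_posPart_gaussianReal _ _)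
    rw [← hz, integral_posPart_scaled hpos.le] at key
    -- key : ‖z‖ ^ 2 ≤ t * ‖z‖ * γ.real A + ‖z‖ * hfun t
    have : ‖z‖ * ‖z‖ ≤ ‖z‖ * (t * γ.real A + hfun t) := by nlinarith
    exact le_of_mul_le_mul_left this hpos

/-- A null cell has vanishing first moment. -/
lemma setIntegral_eq_zero_of_measureReal (A : Set E)
    (h : (stdGaussian E).real A = 0) :
    ∫ x in A, x ∂(stdGaussian E) = 0 := by
  set γ := stdGaussian E
  have hnull : γ A = 0 := (measureReal_eq_zero_iff (measure_ne_top γ A)).1 h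
  rw [Measure.restrict_eq_zero.2 hnull, integral_zero_measure]

/-- Every cell satisfies `‖z(A)‖² ≤ (81 / 200) γ(A)`. -/
lemma sq_norm_le_const_mul_measure (A : Set E) :
    ‖∫ x in A, x ∂(stdGaussian E)‖ ^ 2
      ≤ 81 / 200 * (stdGaussian E).real A := by
  set γ := stdGaussian E
  set p := γ.real A with hp
  have hp0 : 0 ≤ p := measureReal_nonneg
  rcases hp0.eq_or_lt with h0 | hppos
  · rw [setIntegral_eq_zero_of_measureReal A h0.symm, ← h0]; simp
  · set r := Real.sqrt (81 / 800 * p) with hr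
    have hrpos : 0 < r := Real.sqrt_pos.2 (by positivity)
    have hr2 : r ^ 2 = 81 / 800 * p := Real.sq_sqrt (by positivity)
    have htpos : 0 < r / p := by positivity
    have h1 := norm_le_mul_add_hfun A htpos.le
    rw [← hp] at h1
    have h2 := s_mul_hfun_le htpos
    -- hfun (r / p) ≤ r
    have h3 : hfun (r / p) ≤ r := by
      have : r / p * hfun (r / p) ≤ r / p * r := by
        have e : r / p * r = 81 / 800 := by
          rw [div_mul_eq_mul_div, ← sq, hr2]; field_simp
        rw [e]; exact h2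
      exact le_of_mul_le_mul_left this htpos
    have h4 : r / p * p = r := by field_simp
    have h5 : ‖∫ x in A, x ∂γ‖ ≤ 2 * r := by rw [h4] at h1; linarith
    have h6 : 0 ≤ ‖∫ x in A, x ∂γ‖ := norm_nonneg _
    nlinarith

/-- Every cell satisfies `‖z(A)‖² ≤ 1 / (2π)`. -/
lemma sq_norm_le_inv_two_pi (A : Set E) :
    ‖∫ x in A, x ∂(stdGaussian E)‖ ^ 2 ≤ 1 / (2 * Real.pi) := by
  have h1 := norm_le_mul_add_hfun A (le_refl (0 : ℝ))
  rw [zero_mul, zero_add, hfun_zero] at h1
  rw [← phi0_sq]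
  have h0 : 0 ≤ ‖∫ x in A, x ∂(stdGaussian E)‖ := norm_nonneg _
  have hp := phi0_pos
  nlinarith

/-- Universal bound `81 / 200 = 0.405` for pairwise disjoint measurable cells. -/
theorem sum_sq_norm_le_universal {ι : Type*} [Fintype ι] (A : ι → Set E)
    (hmeas : ∀ i, MeasurableSet (A i))
    (hdisj : Pairwise (fun i j => Disjoint (A i) (A j))) :
    ∑ i, ‖∫ x in A i, x ∂(stdGaussian E)‖ ^ 2 ≤ 81 / 200 := by
  set γ := stdGaussian E
  have hsum := sum_measureReal_le_one A hmeas hdisj
  calc ∑ i, ‖∫ x in A i, x ∂γ‖ ^ 2 ≤ ∑ i, 81 / 200 * γ.real (A i) :=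
        Finset.sum_le_sum fun i _ => sq_norm_le_const_mul_measure (A i)
    _ = 81 / 200 * ∑ i, γ.real (A i) := by rw [Finset.mul_sum]
    _ ≤ 81 / 200 * 1 := by apply mul_le_mul_of_nonneg_left hsum (by norm_num)
    _ = 81 / 200 := by norm_num

/-- A cell of measure at most `1 / 7` satisfies `‖z(A)‖² ≤ (9 / (8π)) γ(A)`. -/
lemma sq_norm_le_propeller_mul_measure (A : Set E)
    (hsmall : (stdGaussian E).real A ≤ 1 / 7) :
    ‖∫ x in A, x ∂(stdGaussian E)‖ ^ 2
      ≤ 9 / (8 * Real.pi) * (stdGaussian E).real A := by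
  set γ := stdGaussian E
  set p := γ.real A with hp
  have hp0 : 0 ≤ p := measureReal_nonneg
  have hpi : Real.pi < 3.1416 := Real.pi_lt_d4
  have hpipos : 0 < Real.pi := Real.pi_pos
  have hc : (0.358097 : ℝ) ≤ 9 / (8 * Real.pi) := by
    rw [le_div_iff₀ (by positivity)]
    nlinarith
  rcases le_total p (1 / 16) with hp16 | hp16
  · -- small cells: level-one inequality
    have h := sq_norm_le_level_one A
    rw [← hp] at h
    rcases hp0.eq_or_lt with h0 | hppos
    · rw [setIntegral_eq_zero_of_measureReal A h0.symm, ← h0]; simp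
    · have hlog16 : Real.log 16 = 4 * Real.log 2 := by
        have : (16 : ℝ) = 2 ^ 4 := by norm_num
        rw [this, Real.log_pow]; norm_num
      have hlog2 : 1 / 2 < Real.log 2 := by
        have := Real.log_two_gt_d9; linarith
      have hlog2' : Real.log 2 < 0.6931471808 := Real.log_two_lt_d9
      have hmono : p * Real.log (1 / p) ≤ (1 / 16) * Real.log 16 := by
        have h16p : 0 < 1 / (16 * p) := by positivity
        have e : Real.log (1 / p) = Real.log 16 + Real.log (1 / (16 * p)) := by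
          rw [← Real.log_mul (by norm_num) (ne_of_gt h16p)]
          congr 1; field_simp
        have hle : Real.log (1 / (16 * p)) ≤ 1 / (16 * p) - 1 :=
          Real.log_le_sub_one_of_pos h16p
        have hpinv : p * (1 / (16 * p)) = 1 / 16 := by field_simp
        have h1 : p * Real.log (1 / p) ≤ p * Real.log 16 + (1 / 16 - p) := by
          rw [e, mul_add]
          have : p * Real.log (1 / (16 * p)) ≤ p * (1 / (16 * p) - 1) :=
            mul_le_mul_of_nonneg_left hle hppos.le
          rw [mul_sub, hpinv, mul_one] at this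
          linarith
        have h2 : (1 / 16 - p) ≤ (1 / 16 - p) * Real.log 16 := by
          have : 1 ≤ Real.log 16 := by rw [hlog16]; linarith
          nlinarith
        nlinarith
      calc ‖∫ x in A, x ∂γ‖ ^ 2 ≤ 2 * p ^ 2 * Real.log (1 / p) := h
        _ = 2 * p * (p * Real.log (1 / p)) := by ring
        _ ≤ 2 * p * ((1 / 16) * Real.log 16) := by
            apply mul_le_mul_of_nonneg_left hmono (by positivity)
        _ = (Real.log 2 / 2) * p := by rw [hlog16]; ring
        _ ≤ 0.358097 * p := by apply mul_le_mul_of_nonneg_right _ hp0; linarith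
        _ ≤ 9 / (8 * Real.pi) * p := mul_le_mul_of_nonneg_right hc hp0
  · -- medium cells: the sharp bound at t = 1.07
    have h1 := norm_le_mul_add_hfun A (by norm_num : (0 : ℝ) ≤ 1.07)
    rw [← hp] at h1
    have h2 := hfun_107
    have h3 : ‖∫ x in A, x ∂γ‖ ≤ 1.07 * p + 0.0728 := by linarith
    have h0 : 0 ≤ ‖∫ x in A, x ∂γ‖ := norm_nonneg _
    have h4 : ‖∫ x in A, x ∂γ‖ ^ 2 ≤ (1.07 * p + 0.0728) ^ 2 := by nlinarith
    have h5 : (1.07 * p + 0.0728) ^ 2 ≤ 0.358097 * p := by
      nlinarith [mul_nonneg (sub_nonneg.2 hp16) (sub_nonneg.2 hsmall)]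
    calc ‖∫ x in A, x ∂γ‖ ^ 2 ≤ 0.358097 * p := h4.trans h5
      _ ≤ 9 / (8 * Real.pi) * p := mul_le_mul_of_nonneg_right hc hp0

/-- The propeller bound when every cell has measure at most `1 / 7`. -/
theorem sum_sq_norm_le_of_small {ι : Type*} [Fintype ι] (A : ι → Set E)
    (hmeas : ∀ i, MeasurableSet (A i))
    (hdisj : Pairwise (fun i j => Disjoint (A i) (A j)))
    (hsmall : ∀ i, (stdGaussian E).real (A i) ≤ 1 / 7) :
    ∑ i, ‖∫ x in A i, x ∂(stdGaussian E)‖ ^ 2
      ≤ 9 / (8 * Real.pi) := by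
  set γ := stdGaussian E
  have hsum := sum_measureReal_le_one A hmeas hdisj
  have hpipos : 0 < Real.pi := Real.pi_pos
  calc ∑ i, ‖∫ x in A i, x ∂γ‖ ^ 2 ≤ ∑ i, 9 / (8 * Real.pi) * γ.real (A i) :=
        Finset.sum_le_sum fun i _ => sq_norm_le_propeller_mul_measure (A i) (hsmall i)
    _ = 9 / (8 * Real.pi) * ∑ i, γ.real (A i) := by rw [Finset.mul_sum]
    _ ≤ 9 / (8 * Real.pi) * 1 := by apply mul_le_mul_of_nonneg_left hsum (by positivity)
    _ = 9 / (8 * Real.pi) := by rw [mul_one]

/-- The propeller bound when some cell has measure at least `0.509`. -/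
theorem sum_sq_norm_le_of_large {ι : Type*} [Fintype ι] (A : ι → Set E)
    (hmeas : ∀ i, MeasurableSet (A i))
    (hdisj : Pairwise (fun i j => Disjoint (A i) (A j)))
    (i₀ : ι) (hlarge : 0.509 ≤ (stdGaussian E).real (A i₀)) :
    ∑ i, ‖∫ x in A i, x ∂(stdGaussian E)‖ ^ 2
      ≤ 9 / (8 * Real.pi) := by
  classical
  set γ := stdGaussian E
  have hsum := sum_measureReal_le_one A hmeas hdisj
  have hpi : Real.pi < 3.1416 := Real.pi_lt_d4
  have hpipos : 0 < Real.pi := Real.pi_pos
  have hsplit : ∀ f : ι → ℝ, ∑ i, f i = f i₀ + ∑ i ∈ Finset.univ.erase i₀, f i :=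
    fun f => (Finset.add_sum_erase Finset.univ f (Finset.mem_univ i₀)).symm
  rw [hsplit] at hsum ⊢
  have hrest : ∑ i ∈ Finset.univ.erase i₀, ‖∫ x in A i, x ∂γ‖ ^ 2
      ≤ 81 / 200 * ∑ i ∈ Finset.univ.erase i₀, γ.real (A i) := by
    rw [Finset.mul_sum]
    exact Finset.sum_le_sum fun i _ => sq_norm_le_const_mul_measure (A i)
  have h0 := sq_norm_le_inv_two_pi (A i₀)
  have hq : ∑ i ∈ Finset.univ.erase i₀, γ.real (A i) ≤ 0.491 := by linarith
  have hfin : 1 / (2 * Real.pi) + 81 / 200 * 0.491 ≤ 9 / (8 * Real.pi) := by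
    have e : 9 / (8 * Real.pi) - 1 / (2 * Real.pi) = 5 / (8 * Real.pi) := by
      field_simp; ring
    have : (81 / 200 * 0.491 : ℝ) ≤ 5 / (8 * Real.pi) := by
      rw [le_div_iff₀ (by positivity)]
      nlinarith
    linarith
  linarith

/-- A cell of measure at least `4 / 9` satisfies `‖z(A)‖² ≤ (9 / (8π)) γ(A)`. -/
lemma sq_norm_le_propeller_mul_measure_of_large (A : Set E)
    (hlarge : 4 / 9 ≤ (stdGaussian E).real A) :
    ‖∫ x in A, x ∂(stdGaussian E)‖ ^ 2
      ≤ 9 / (8 * Real.pi) * (stdGaussian E).real A := by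
  have h := sq_norm_le_inv_two_pi A
  have hpipos : 0 < Real.pi := Real.pi_pos
  have h2 : 1 / (2 * Real.pi) ≤ 9 / (8 * Real.pi) * (4 / 9) := by
    have e : 9 / (8 * Real.pi) * (4 / 9) = 1 / (2 * Real.pi) := by field_simp; ring
    rw [e]
  have h3 : 9 / (8 * Real.pi) * (4 / 9)
      ≤ 9 / (8 * Real.pi) * (stdGaussian E).real A :=
    mul_le_mul_of_nonneg_left hlarge (by positivity)
  linarith

/-- The propeller bound when every cell has measure at most `1 / 7` or at least `4 / 9`. -/
theorem sum_sq_norm_le_of_small_or_large {ι : Type*} [Fintype ι] (A : ι → Set E)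
    (hmeas : ∀ i, MeasurableSet (A i))
    (hdisj : Pairwise (fun i j => Disjoint (A i) (A j)))
    (hsize : ∀ i, (stdGaussian E).real (A i) ≤ 1 / 7
      ∨ 4 / 9 ≤ (stdGaussian E).real (A i)) :
    ∑ i, ‖∫ x in A i, x ∂(stdGaussian E)‖ ^ 2
      ≤ 9 / (8 * Real.pi) := by
  set γ := stdGaussian E
  have hsum := sum_measureReal_le_one A hmeas hdisj
  have hpipos : 0 < Real.pi := Real.pi_pos
  calc ∑ i, ‖∫ x in A i, x ∂γ‖ ^ 2 ≤ ∑ i, 9 / (8 * Real.pi) * γ.real (A i) :=
        Finset.sum_le_sum fun i _ => by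
          rcases hsize i with h | h
          · exact sq_norm_le_propeller_mul_measure (A i) h
          · exact sq_norm_le_propeller_mul_measure_of_large (A i) h
    _ = 9 / (8 * Real.pi) * ∑ i, γ.real (A i) := by rw [Finset.mul_sum]
    _ ≤ 9 / (8 * Real.pi) * 1 := by apply mul_le_mul_of_nonneg_left hsum (by positivity)
    _ = 9 / (8 * Real.pi) := by rw [mul_one]

end Vale.Agent.Lib.P226
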