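import Vale.Agent.Lib.P226.Basic

/-!
Symmetric region systems for P226: if a finite group of linear isometries without nonzero fixed
vector moves a region `Ω` to pairwise disjoint regions, then every family of disjoint cells, each
inside one of the regions, has a controlled sum of squared Gaussian first moments.
-/

open MeasureTheory ProbabilityTheory
open scoped RealInnerProductSpace NNReal

namespace Vale.Agent.Lib.P226

variable {E : Type*} [NormedAddCommGroup E] [InnerProductSpace ℝ E] [FiniteDimensional ℝ E]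
  [MeasurableSpace E] [BorelSpace E]

/-- The Gaussian first moment of a set. -/
noncomputable def zmom (A : Set E) : E := ∫ x in A, x ∂(stdGaussian E)

theorem zmom_empty : zmom (∅ : Set E) = 0 := by
  unfold zmom
  rw [Measure.restrict_empty, integral_zero_measure]

theorem zmom_image (T : E ≃ₗᵢ[ℝ] E) (A : Set E) : zmom (T '' A) = T (zmom A) := by
  unfold zmom
  have hmap : (stdGaussian E).map T = stdGaussian E := stdGaussian_map T
  have hme : MeasurableEmbedding T := T.toHomeomorph.measurableEmbedding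
  have hint : Integrable (fun x : E => x) ((stdGaussian E).restrict A) :=
    (IsGaussian.integrable_id (μ := stdGaussian E)).restrict
  have h1 : ∫ x in T '' A, x ∂(stdGaussian E) = ∫ x in T '' A, x ∂((stdGaussian E).map T) := by
    rw [hmap]
  rw [h1, hme.setIntegral_map, Set.preimage_image_eq _ T.injective]
  exact (T.toContinuousLinearEquiv.toContinuousLinearMap).integral_comp_comm hint

theorem inner_zmom (w : E) (A : Set E) :
    ⟪w, zmom A⟫ = ∫ x in A, ⟪w, x⟫ ∂(stdGaussian E) := by
  unfold zmom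
  have hint : Integrable (fun x : E => x) ((stdGaussian E).restrict A) :=
    (IsGaussian.integrable_id (μ := stdGaussian E)).restrict
  have h := ContinuousLinearMap.integral_comp_comm (innerSL ℝ w) hint
  simp only [innerSL_apply_apply] at h
  exact h.symm

theorem integrable_inner (w : E) : Integrable (fun x : E => ⟪w, x⟫) (stdGaussian E) :=
  IsGaussian.integrable_dual (stdGaussian E) (innerSL ℝ w)

theorem measurableSet_image_isometry (T : E ≃ₗᵢ[ℝ] E) {A : Set E} (hA : MeasurableSet A) :
    MeasurableSet (T '' A) :=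
  T.toHomeomorph.toMeasurableEquiv.measurableSet_image.2 hA

/-- First moment of a finite disjoint union of moved cells. -/
theorem zmom_iUnion_image {P : Type*} [Fintype P] (V : P → E ≃ₗᵢ[ℝ] E) (B : P → Set E)
    (hmeas : ∀ p, MeasurableSet (B p))
    (hdisj : Pairwise (fun p q => Disjoint (V p '' B p) (V q '' B q))) :
    zmom (⋃ p, V p '' B p) = ∑ p, V p (zmom (B p)) := by
  have h := integral_iUnion_fintype (μ := stdGaussian E) (f := fun x : E => x)
    (s := fun p => V p '' B p) (fun p => measurableSet_image_isometry (V p) (hmeas p)) hdisj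
    (fun p => (IsGaussian.integrable_id (μ := stdGaussian E)).integrableOn)
  unfold zmom at *
  rw [h]
  refine Finset.sum_congr rfl fun p _ => ?_
  exact zmom_image (V p) (B p)

/-- Orbit bound for a single set: if the images of `C` under finitely many linear isometries are
pairwise disjoint and `g ≥ 0` dominates the linear forms `x ↦ ⟪V a z, x⟫`, `z` the first moment
of `C`, then `card * ‖z‖² ≤ ∫ g`. -/
theorem orbit_single {G : Type*} [Fintype G] (V : G → E ≃ₗᵢ[ℝ] E) (C : Set E)
    (hC : MeasurableSet C)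
    (hdisj : Pairwise (fun a b => Disjoint (V a '' C) (V b '' C)))
    (g : E → ℝ) (hg : Integrable g (stdGaussian E)) (hg0 : ∀ x, 0 ≤ g x)
    (hle : ∀ a x, ⟪V a (zmom C), x⟫ ≤ g x) :
    (Fintype.card G : ℝ) * ‖zmom C‖ ^ 2 ≤ ∫ x, g x ∂(stdGaussian E) := by
  set γ := stdGaussian E
  set z := zmom C with hz
  have h1 : ∀ a, ‖z‖ ^ 2 ≤ ∫ x in V a '' C, g x ∂γ := by
    intro a
    have e1 : ‖z‖ ^ 2 = ⟪V a z, zmom (V a '' C)⟫ := by
      rw [zmom_image, ← hz, real_inner_self_eq_norm_sq, LinearIsometryEquiv.norm_map]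
    rw [e1, inner_zmom]
    exact setIntegral_mono (integrable_inner _).integrableOn hg.integrableOn (fun x => hle a x)
  have h2 : ∑ a, ∫ x in V a '' C, g x ∂γ = ∫ x in ⋃ a, V a '' C, g x ∂γ := by
    rw [integral_iUnion_fintype (fun a => measurableSet_image_isometry (V a) hC) hdisj
      (fun a => hg.integrableOn)]
  have h3 : ∫ x in ⋃ a, V a '' C, g x ∂γ ≤ ∫ x, g x ∂γ :=
    setIntegral_le_integral hg (Filter.Eventually.of_forall hg0)
  calc (Fintype.card G : ℝ) * ‖z‖ ^ 2 = ∑ _a : G, ‖z‖ ^ 2 := by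
        rw [Finset.sum_const, Finset.card_univ, nsmul_eq_mul]
    _ ≤ ∑ a, ∫ x in V a '' C, g x ∂γ := Finset.sum_le_sum fun a _ => h1 a
    _ = ∫ x in ⋃ a, V a '' C, g x ∂γ := h2
    _ ≤ ∫ x, g x ∂γ := h3

/-- Choice of group elements: the moved vectors can be arranged so that the squared norm of their
sum is at least the sum of the squared norms. -/
theorem exists_choice {G : Type*} [Fintype G] [Nonempty G] (U : G → E ≃ₗᵢ[ℝ] E)
    (hsum : ∀ v, ∑ a, U a v = 0) {P : Type*} [DecidableEq P] (s : Finset P) (z : P → E) :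
    ∃ ω : P → G, ∑ p ∈ s, ‖z p‖ ^ 2 ≤ ‖∑ p ∈ s, U (ω p) (z p)‖ ^ 2 := by
  induction s using Finset.induction_on with
  | empty => exact ⟨fun _ => Classical.arbitrary G, by simp⟩
  | insert a s ha ih =>
    obtain ⟨ω, hω⟩ := ih
    set w := ∑ p ∈ s, U (ω p) (z p) with hw
    have hkey : ∑ b : G, (‖w‖ ^ 2 + ‖z a‖ ^ 2) ≤ ∑ b : G, ‖U b (z a) + w‖ ^ 2 := by
      have e : ∀ b : G, ‖U b (z a) + w‖ ^ 2
          = ‖z a‖ ^ 2 + 2 * ⟪U b (z a), w⟫ + ‖w‖ ^ 2 := by
        intro b
        rw [norm_add_sq_real, LinearIsometryEquiv.norm_map]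
      have e2 : ∑ b : G, ⟪U b (z a), w⟫ = 0 := by
        rw [← sum_inner, hsum, inner_zero_left]
      have e3 : ∑ b : G, ‖U b (z a) + w‖ ^ 2 = ∑ _b : G, (‖w‖ ^ 2 + ‖z a‖ ^ 2) := by
        simp only [e]
        rw [Finset.sum_add_distrib, Finset.sum_add_distrib, ← Finset.mul_sum, e2,
          Finset.sum_add_distrib]
        ring
      rw [e3]
    obtain ⟨b, -, hb⟩ := Finset.exists_le_of_sum_le Finset.univ_nonempty hkey
    refine ⟨Function.update ω a b, ?_⟩
    have hs : ∑ p ∈ s, U (Function.update ω a b p) (z p) = w := by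
      rw [hw]
      refine Finset.sum_congr rfl fun p hp => ?_
      have hpa : p ≠ a := fun h => ha (h ▸ hp)
      rw [Function.update_of_ne hpa]
    rw [Finset.sum_insert ha, Finset.sum_insert ha, hs, Function.update_self]
    linarith

/-- Family bound inside one region of a free region system of a finite group of isometries. -/
theorem orbit_family_bound {G : Type*} [AddGroup G] [Fintype G]
    (U : G → E ≃ₗᵢ[ℝ] E) (hU : ∀ a b x, U (a + b) x = U a (U b x))
    (hsum : ∀ v, ∑ a, U a v = 0)
    (Ω : Set E) (hΩ : ∀ a b, a ≠ b → Disjoint (U a '' Ω) (U b '' Ω))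
    (c : ℝ) (hc : ∀ v : E, ∃ g : E → ℝ, Integrable g (stdGaussian E) ∧ (∀ x, 0 ≤ g x) ∧
       (∀ a x, ⟪U a v, x⟫ ≤ g x) ∧ ∫ x, g x ∂(stdGaussian E) ≤ c * ‖v‖)
    {P : Type*} [Fintype P] (B : P → Set E) (hmeas : ∀ p, MeasurableSet (B p))
    (hdisj : Pairwise (fun p q => Disjoint (B p) (B q))) (hsub : ∀ p, B p ⊆ Ω) :
    ∑ p, ‖zmom (B p)‖ ^ 2 ≤ (c / Fintype.card G) ^ 2 := by
  classical
  obtain ⟨ω, hω⟩ := exists_choice U hsum (Finset.univ : Finset P) (fun p => zmom (B p))
  have aux : ∀ p q g h, (p ≠ q ∨ g ≠ h) → Disjoint (U g '' B p) (U h '' B q) := by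
    intro p q g h hne
    by_cases hgh : g = h
    · subst hgh
      have hpq : p ≠ q := by
        rcases hne with h1 | h1
        · exact h1
        · exact absurd rfl h1
      exact (Set.disjoint_image_iff (U g).injective).2 (hdisj hpq)
    · exact (hΩ g h hgh).mono (Set.image_mono (hsub p)) (Set.image_mono (hsub q))
  set C := ⋃ p, U (ω p) '' B p with hCdef
  have hCmeas : MeasurableSet C :=
    MeasurableSet.iUnion fun p => measurableSet_image_isometry _ (hmeas p)
  have hzC : zmom C = ∑ p, U (ω p) (zmom (B p)) :=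
    zmom_iUnion_image (fun p => U (ω p)) B hmeas (fun p q hpq => aux p q _ _ (Or.inl hpq))
  have hCdisj : Pairwise (fun a b => Disjoint (U a '' C) (U b '' C)) := by
    intro a b hab
    rw [hCdef, Set.image_iUnion, Set.image_iUnion]
    simp only [Set.disjoint_iUnion_left, Set.disjoint_iUnion_right]
    intro q p
    have e1 : U a '' (U (ω p) '' B p) = U (a + ω p) '' B p := by
      rw [Set.image_image]; exact Set.image_congr fun x _ => (hU a (ω p) x).symm
    have e2 : U b '' (U (ω q) '' B q) = U (b + ω q) '' B q := by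
      rw [Set.image_image]; exact Set.image_congr fun x _ => (hU b (ω q) x).symm
    rw [e1, e2]
    apply aux
    by_cases hpq : p = q
    · right
      subst hpq
      intro h
      exact hab (add_right_cancel h)
    · exact Or.inl hpq
  obtain ⟨g, hg, hg0, hle, hint⟩ := hc (zmom C)
  have hsingle := orbit_single U C hCmeas hCdisj g hg hg0 hle
  have hn : 0 < (Fintype.card G : ℝ) := by exact_mod_cast Fintype.card_pos
  set v := zmom C with hv
  have h1 : (Fintype.card G : ℝ) * ‖v‖ ^ 2 ≤ c * ‖v‖ := hsingle.trans hint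
  have h2 : ∑ p, ‖zmom (B p)‖ ^ 2 ≤ ‖v‖ ^ 2 := by
    rw [hzC]
    simpa using hω
  have h3 : ‖v‖ ^ 2 ≤ (c / Fintype.card G) ^ 2 := by
    rcases (norm_nonneg v).eq_or_lt with h0 | hpos
    · rw [← h0]
      have : (0 : ℝ) ^ 2 = 0 := by norm_num
      rw [this]
      positivity
    · have h4 : (Fintype.card G : ℝ) * ‖v‖ ≤ c := by
        have : (Fintype.card G : ℝ) * ‖v‖ * ‖v‖ ≤ c * ‖v‖ := by nlinarith
        exact le_of_mul_le_mul_right this hpos
      have h5 : ‖v‖ ≤ c / Fintype.card G := by rw [le_div_iff₀ hn]; linarith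
      exact pow_le_pow_left₀ (norm_nonneg v) h5 2
  exact h2.trans h3

/-- Region bound: cells each inside one of the regions `U a '' Ω`. -/
theorem region_bound {G : Type*} [AddGroup G] [Fintype G]
    (U : G → E ≃ₗᵢ[ℝ] E) (hU : ∀ a b x, U (a + b) x = U a (U b x))
    (hsum : ∀ v, ∑ a, U a v = 0)
    (Ω : Set E) (hΩ : ∀ a b, a ≠ b → Disjoint (U a '' Ω) (U b '' Ω))
    (c : ℝ) (hc : ∀ v : E, ∃ g : E → ℝ, Integrable g (stdGaussian E) ∧ (∀ x, 0 ≤ g x) ∧
       (∀ a x, ⟪U a v, x⟫ ≤ g x) ∧ ∫ x, g x ∂(stdGaussian E) ≤ c * ‖v‖)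
    {ι : Type*} [Fintype ι] (A : ι → Set E) (hmeas : ∀ i, MeasurableSet (A i))
    (hdisj : Pairwise (fun i j => Disjoint (A i) (A j)))
    (hsub : ∀ i, ∃ a, A i ⊆ U a '' Ω) :
    ∑ i, ‖zmom (A i)‖ ^ 2 ≤ c ^ 2 / Fintype.card G := by
  classical
  choose r hr using hsub
  have hn : 0 < (Fintype.card G : ℝ) := by exact_mod_cast Fintype.card_pos
  have hfam : ∀ a : G, ∑ i, (if r i = a then ‖zmom (A i)‖ ^ 2 else 0)
      ≤ (c / Fintype.card G) ^ 2 := by
    intro a
    have hΩa : ∀ b b', b ≠ b' → Disjoint (U b '' (U a '' Ω)) (U b' '' (U a '' Ω)) := by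
      intro b b' hbb
      have e1 : U b '' (U a '' Ω) = U (b + a) '' Ω := by
        rw [Set.image_image]; exact Set.image_congr fun x _ => (hU b a x).symm
      have e2 : U b' '' (U a '' Ω) = U (b' + a) '' Ω := by
        rw [Set.image_image]; exact Set.image_congr fun x _ => (hU b' a x).symm
      rw [e1, e2]
      exact hΩ _ _ (fun h => hbb (add_right_cancel h))
    have key := orbit_family_bound U hU hsum (U a '' Ω) hΩa c hc
      (fun i => if r i = a then A i else ∅)
      (fun i => by
        by_cases h : r i = a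
        · simp only [h, if_true]; exact hmeas i
        · simp only [h, if_false]; exact MeasurableSet.empty)
      (fun i j hij => by
        by_cases h : r i = a
        · by_cases h' : r j = a
          · simp only [h, h', if_true]; exact hdisj hij
          · simp only [h', if_false]; exact Set.disjoint_empty _
        · simp only [h, if_false]; exact Set.empty_disjoint _)
      (fun i => by
        by_cases h : r i = a
        · simp only [h, if_true]; exact h ▸ hr i
        · simp only [h, if_false]; exact Set.empty_subset _)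
    refine le_trans (le_of_eq ?_) key
    refine Finset.sum_congr rfl fun i _ => ?_
    by_cases h : r i = a
    · simp only [h, if_true]
    · simp only [h, if_false, zmom_empty, norm_zero]
      norm_num
  calc ∑ i, ‖zmom (A i)‖ ^ 2
      = ∑ i, ∑ a : G, (if r i = a then ‖zmom (A i)‖ ^ 2 else 0) := by
        refine Finset.sum_congr rfl fun i _ => ?_
        rw [Finset.sum_ite_eq]; simp
    _ = ∑ a : G, ∑ i, (if r i = a then ‖zmom (A i)‖ ^ 2 else 0) := Finset.sum_comm
    _ ≤ ∑ _a : G, (c / Fintype.card G) ^ 2 := Finset.sum_le_sum fun a _ => hfam a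
    _ = c ^ 2 / Fintype.card G := by
        rw [Finset.sum_const, Finset.card_univ, nsmul_eq_mul]
        field_simp

end Vale.Agent.Lib.P226
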