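import Vale.Agent.Lib.P226.SymmetricCases

/-!
Lifting to the orthogonal double `E ⊕ E`: an isometry of order three of `E` with fixed vectors
becomes, after a twist on the fixed part, an isometry of order three of the double without
nonzero fixed vector.  First moments of cylinders over cells of `E` dominate those of the cells.
-/

open MeasureTheory ProbabilityTheory
open scoped RealInnerProductSpace NNReal

namespace Vale.Agent.Lib.P226

variable {E : Type*} [NormedAddCommGroup E] [InnerProductSpace ℝ E] [FiniteDimensional ℝ E]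
  [MeasurableSpace E] [BorelSpace E]

/-- The first coordinate of a standard Gaussian vector of the double is standard Gaussian. -/
theorem map_fst_stdGaussian :
    (stdGaussian (WithLp 2 (E × E))).map (fun v => v.fst) = stdGaussian E := by
  have hcont : Continuous (fun v : WithLp 2 (E × E) => v.fst) := WithLp.continuous_fst 2 E E
  have : IsProbabilityMeasure ((stdGaussian (WithLp 2 (E × E))).map (fun v => v.fst)) :=
    Measure.isProbabilityMeasure_map hcont.measurable.aemeasurable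
  apply Measure.ext_of_charFun
  ext t
  rw [charFun_stdGaussian, charFun_apply, integral_map hcont.measurable.aemeasurable (by fun_prop)]
  have h1 : ∀ v : WithLp 2 (E × E), ⟪v.fst, t⟫ = ⟪v, WithLp.toLp 2 (t, (0 : E))⟫ := by
    intro v
    rw [WithLp.prod_inner_apply]
    simp
  simp_rw [h1]
  rw [← charFun_apply, charFun_stdGaussian, WithLp.norm_toLp_fst]

/-- The first moment of a measurable cell is dominated by that of the cylinder over it. -/
theorem norm_zmom_le_lift (A : Set E) (hA : MeasurableSet A) :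
    ‖zmom A‖ ≤ ‖zmom ((fun v : WithLp 2 (E × E) => v.fst) ⁻¹' A)‖ := by
  have hcont : Continuous (fun v : WithLp 2 (E × E) => v.fst) := WithLp.continuous_fst 2 E E
  set w := zmom ((fun v : WithLp 2 (E × E) => v.fst) ⁻¹' A) with hw
  have h1 : zmom A = w.fst := by
    unfold zmom at *
    have e1 : ∫ x in A, x ∂(stdGaussian E)
        = ∫ x in A, x ∂((stdGaussian (WithLp 2 (E × E))).map (fun v => v.fst)) := by
      rw [map_fst_stdGaussian]
    rw [e1, setIntegral_map hA (by fun_prop) hcont.measurable.aemeasurable]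
    have hint : Integrable (fun v : WithLp 2 (E × E) => v)
        ((stdGaussian (WithLp 2 (E × E))).restrict ((fun v : WithLp 2 (E × E) => v.fst) ⁻¹' A)) :=
      (IsGaussian.integrable_id (μ := stdGaussian (WithLp 2 (E × E)))).restrict
    have h := ContinuousLinearMap.integral_comp_comm (WithLp.fstL 2 ℝ E E) hint
    rw [hw]
    exact h
  rw [h1]
  have h2 := WithLp.prod_norm_sq_eq_of_L2 w
  have h3 : ‖w.fst‖ ^ 2 ≤ ‖w‖ ^ 2 := by
    have := sq_nonneg ‖w.snd‖
    linarith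
  exact le_of_sq_le_sq h3 (norm_nonneg _)

/-- The average of the orbit of a vector under an isometry of order three. -/
noncomputable def fixAvg (T : E ≃ₗᵢ[ℝ] E) : E →ₗ[ℝ] E :=
  (1 / 3 : ℝ) • (LinearMap.id + (T.toLinearEquiv : E →ₗ[ℝ] E)
    + (T.toLinearEquiv : E →ₗ[ℝ] E) ∘ₗ (T.toLinearEquiv : E →ₗ[ℝ] E))

omit [FiniteDimensional ℝ E] [MeasurableSpace E] [BorelSpace E] in
theorem fixAvg_apply (T : E ≃ₗᵢ[ℝ] E) (x : E) :
    fixAvg T x = (1 / 3 : ℝ) • (x + T x + T (T x)) := rfl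

omit [FiniteDimensional ℝ E] [MeasurableSpace E] [BorelSpace E] in
theorem map_fixAvg (T : E ≃ₗᵢ[ℝ] E) (hT3 : ∀ x, T (T (T x)) = x) (x : E) :
    T (fixAvg T x) = fixAvg T x := by
  rw [fixAvg_apply, map_smul, map_add, map_add, hT3]
  congr 1
  abel

omit [FiniteDimensional ℝ E] [MeasurableSpace E] [BorelSpace E] in
theorem fixAvg_map (T : E ≃ₗᵢ[ℝ] E) (hT3 : ∀ x, T (T (T x)) = x) (x : E) :
    fixAvg T (T x) = fixAvg T x := by
  rw [fixAvg_apply, fixAvg_apply, hT3]
  congr 1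
  abel

omit [FiniteDimensional ℝ E] [MeasurableSpace E] [BorelSpace E] in
theorem fixAvg_fixAvg (T : E ≃ₗᵢ[ℝ] E) (hT3 : ∀ x, T (T (T x)) = x) (x : E) :
    fixAvg T (fixAvg T x) = fixAvg T x := by
  conv_lhs => rw [fixAvg_apply, map_fixAvg T hT3, map_fixAvg T hT3]
  module

omit [FiniteDimensional ℝ E] [MeasurableSpace E] [BorelSpace E] in
theorem inner_map_fixAvg (T : E ≃ₗᵢ[ℝ] E) (hT3 : ∀ x, T (T (T x)) = x) (a b : E) :
    ⟪T a, fixAvg T b⟫ = ⟪a, fixAvg T b⟫ := by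
  conv_lhs => rw [← map_fixAvg T hT3 b]
  exact T.inner_map_map a (fixAvg T b)

omit [FiniteDimensional ℝ E] [MeasurableSpace E] [BorelSpace E] in
theorem inner_fixAvg_fixAvg (T : E ≃ₗᵢ[ℝ] E) (hT3 : ∀ x, T (T (T x)) = x) (a b : E) :
    ⟪fixAvg T a, fixAvg T b⟫ = ⟪a, fixAvg T b⟫ := by
  conv_lhs => rw [fixAvg_apply T a]
  rw [inner_smul_left, inner_add_left, inner_add_left, inner_map_fixAvg T hT3,
    inner_map_fixAvg T hT3, inner_map_fixAvg T hT3]
  simp only [RCLike.conj_to_real]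
  ring

/-- The twisted lift of `T` to the double, as a linear map. -/
noncomputable def liftLin (T : E ≃ₗᵢ[ℝ] E) : WithLp 2 (E × E) →ₗ[ℝ] WithLp 2 (E × E) :=
  (WithLp.linearEquiv 2 ℝ (E × E)).symm.toLinearMap ∘ₗ
    LinearMap.prod
      (((T.toLinearEquiv : E →ₗ[ℝ] E) - (3 / 2 : ℝ) • fixAvg T) ∘ₗ WithLp.fstₗ 2 ℝ E E
        - ((Real.sqrt 3 / 2) • fixAvg T) ∘ₗ WithLp.sndₗ 2 ℝ E E)
      (((Real.sqrt 3 / 2) • fixAvg T) ∘ₗ WithLp.fstₗ 2 ℝ E E
        + ((T.toLinearEquiv : E →ₗ[ℝ] E) - (3 / 2 : ℝ) • fixAvg T) ∘ₗ WithLp.sndₗ 2 ℝ E E)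

omit [FiniteDimensional ℝ E] [MeasurableSpace E] [BorelSpace E] in
theorem liftLin_fst (T : E ≃ₗᵢ[ℝ] E) (v : WithLp 2 (E × E)) :
    (liftLin T v).fst = T v.fst - (3 / 2 : ℝ) • fixAvg T v.fst
      - (Real.sqrt 3 / 2) • fixAvg T v.snd := rfl

omit [FiniteDimensional ℝ E] [MeasurableSpace E] [BorelSpace E] in
theorem liftLin_snd (T : E ≃ₗᵢ[ℝ] E) (v : WithLp 2 (E × E)) :
    (liftLin T v).snd = (Real.sqrt 3 / 2) • fixAvg T v.fst
      + (T v.snd - (3 / 2 : ℝ) • fixAvg T v.snd) := rfl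

theorem sqrt_three_half_sq : Real.sqrt 3 / 2 * (Real.sqrt 3 / 2) = 3 / 4 := by
  have := Real.mul_self_sqrt (show (0 : ℝ) ≤ 3 by norm_num)
  nlinarith

omit [FiniteDimensional ℝ E] [MeasurableSpace E] [BorelSpace E] in
theorem norm_liftLin (T : E ≃ₗᵢ[ℝ] E) (hT3 : ∀ x, T (T (T x)) = x) (v : WithLp 2 (E × E)) :
    ‖liftLin T v‖ = ‖v‖ := by
  have hs := sqrt_three_half_sq
  have key : ‖liftLin T v‖ ^ 2 = ‖v‖ ^ 2 := by
    rw [WithLp.prod_norm_sq_eq_of_L2, WithLp.prod_norm_sq_eq_of_L2, liftLin_fst, liftLin_snd]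
    generalize v.fst = x
    generalize v.snd = y
    generalize Real.sqrt 3 / 2 = s at hs ⊢
    have f1 : ⟪T x, T x⟫ = ⟪x, x⟫ := T.inner_map_map x x
    have f2 : ⟪T y, T y⟫ = ⟪y, y⟫ := T.inner_map_map y y
    have a1 : ⟪T x, fixAvg T x⟫ = ⟪x, fixAvg T x⟫ := inner_map_fixAvg T hT3 x x
    have a1' : ⟪fixAvg T x, T x⟫ = ⟪x, fixAvg T x⟫ := by rw [real_inner_comm]; exact a1
    have a2 : ⟪T x, fixAvg T y⟫ = ⟪x, fixAvg T y⟫ := inner_map_fixAvg T hT3 x y
    have a2' : ⟪fixAvg T y, T x⟫ = ⟪x, fixAvg T y⟫ := by rw [real_inner_comm]; exact a2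
    have b1 : ⟪fixAvg T x, fixAvg T x⟫ = ⟪x, fixAvg T x⟫ := inner_fixAvg_fixAvg T hT3 x x
    have b2 : ⟪fixAvg T x, fixAvg T y⟫ = ⟪x, fixAvg T y⟫ := inner_fixAvg_fixAvg T hT3 x y
    have b3 : ⟪fixAvg T y, fixAvg T x⟫ = ⟪x, fixAvg T y⟫ := by rw [real_inner_comm]; exact b2
    have b4 : ⟪fixAvg T y, fixAvg T y⟫ = ⟪y, fixAvg T y⟫ := inner_fixAvg_fixAvg T hT3 y y
    have c1 : ⟪y, fixAvg T x⟫ = ⟪x, fixAvg T y⟫ := by
      rw [← inner_fixAvg_fixAvg T hT3 y x, b3]
    have a3 : ⟪T y, fixAvg T x⟫ = ⟪x, fixAvg T y⟫ := by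
      rw [inner_map_fixAvg T hT3 y x, c1]
    have a3' : ⟪fixAvg T x, T y⟫ = ⟪x, fixAvg T y⟫ := by rw [real_inner_comm]; exact a3
    have a4 : ⟪T y, fixAvg T y⟫ = ⟪y, fixAvg T y⟫ := inner_map_fixAvg T hT3 y y
    have a4' : ⟪fixAvg T y, T y⟫ = ⟪y, fixAvg T y⟫ := by rw [real_inner_comm]; exact a4
    rw [← real_inner_self_eq_norm_sq, ← real_inner_self_eq_norm_sq,
      ← real_inner_self_eq_norm_sq x, ← real_inner_self_eq_norm_sq y]
    simp only [inner_sub_left, inner_sub_right, inner_add_left, inner_add_right,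
      inner_smul_left, inner_smul_right, RCLike.conj_to_real,
      f1, f2, a1, a1', a2, a2', a3, a3', a4, a4', b1, b2, b3, b4]
    linear_combination (⟪x, fixAvg T x⟫ + ⟪y, fixAvg T y⟫) * hs
  exact (sq_eq_sq₀ (norm_nonneg _) (norm_nonneg _)).1 key

omit [FiniteDimensional ℝ E] [MeasurableSpace E] [BorelSpace E] in
theorem liftLin_sum (T : E ≃ₗᵢ[ℝ] E) (hT3 : ∀ x, T (T (T x)) = x) (v : WithLp 2 (E × E)) :
    v + liftLin T v + liftLin T (liftLin T v) = 0 := by
  have hs := sqrt_three_half_sq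
  have hx : ∀ x : E, T (T x) = (3 : ℝ) • fixAvg T x - x - T x := by
    intro x
    rw [fixAvg_apply]
    module
  apply WithLp.ofLp_injective 2
  refine Prod.ext ?_ ?_
  · show (v + liftLin T v + liftLin T (liftLin T v)).fst = 0
    rw [WithLp.add_fst, WithLp.add_fst, liftLin_fst, liftLin_fst, liftLin_fst, liftLin_snd]
    simp only [map_sub, map_add, map_smul, map_fixAvg T hT3, fixAvg_map T hT3,
      fixAvg_fixAvg T hT3]
    rw [hx]
    generalize v.fst = x
    generalize v.snd = y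
    generalize Real.sqrt 3 / 2 = s at hs ⊢
    have e : s • (s • fixAvg T x + (fixAvg T y - (3 / 2 : ℝ) • fixAvg T y))
        = (3 / 4 : ℝ) • fixAvg T x + s • (fixAvg T y - (3 / 2 : ℝ) • fixAvg T y) := by
      rw [smul_add, smul_smul, hs]
    rw [e]
    module
  · show (v + liftLin T v + liftLin T (liftLin T v)).snd = 0
    rw [WithLp.add_snd, WithLp.add_snd, liftLin_snd, liftLin_snd, liftLin_fst, liftLin_snd]
    simp only [map_sub, map_add, map_smul, map_fixAvg T hT3, fixAvg_map T hT3,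
      fixAvg_fixAvg T hT3]
    rw [hx]
    generalize v.fst = x
    generalize v.snd = y
    generalize Real.sqrt 3 / 2 = s at hs ⊢
    have e : s • (fixAvg T x - (3 / 2 : ℝ) • fixAvg T x - s • fixAvg T y)
        = s • (fixAvg T x - (3 / 2 : ℝ) • fixAvg T x) - (3 / 4 : ℝ) • fixAvg T y := by
      rw [smul_sub, smul_smul, hs]
    rw [e]
    module

/-- The twisted lift as a linear isometry equivalence of the double. -/
noncomputable def liftIso (T : E ≃ₗᵢ[ℝ] E) (hT3 : ∀ x, T (T (T x)) = x) :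
    WithLp 2 (E × E) ≃ₗᵢ[ℝ] WithLp 2 (E × E) :=
  (LinearIsometry.mk (liftLin T) (norm_liftLin T hT3)).toLinearIsometryEquiv rfl

omit [MeasurableSpace E] [BorelSpace E] in
theorem liftIso_apply (T : E ≃ₗᵢ[ℝ] E) (hT3 : ∀ x, T (T (T x)) = x) (v : WithLp 2 (E × E)) :
    liftIso T hT3 v = liftLin T v := rfl

/-- Threefold regions with fixed vectors: `T` is a linear isometry of order three, the region
`Ω` is disjoint from `T '' Ω` and invariant under translation by the fixed vectors of `T`. -/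
theorem threefold_fixed_bound (T : E ≃ₗᵢ[ℝ] E) (hT3 : ∀ x, T (T (T x)) = x)
    (Ω : Set E) (hΩ : ∀ x ∈ Ω, T x ∉ Ω)
    (hfix : ∀ x ∈ Ω, ∀ f, T f = f → x + f ∈ Ω)
    {ι : Type*} [Fintype ι] (A : ι → Set E) (hmeas : ∀ i, MeasurableSet (A i))
    (hdisj : Pairwise (fun i j => Disjoint (A i) (A j)))
    (hsub : ∀ i, A i ⊆ Ω ∨ A i ⊆ T '' Ω ∨ A i ⊆ T '' (T '' Ω)) :
    ∑ i, ‖zmom (A i)‖ ^ 2 ≤ 9 / (8 * Real.pi) := by
  have hπc : Continuous (fun v : WithLp 2 (E × E) => v.fst) := WithLp.continuous_fst 2 E E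
  set T' := liftIso T hT3 with hT'
  have hT'sum : ∀ v : WithLp 2 (E × E), v + T' v + T' (T' v) = 0 :=
    fun v => liftLin_sum T hT3 v
  have hT'3 : ∀ v : WithLp 2 (E × E), T' (T' (T' v)) = v := cube_fixed T' hT'sum
  have hfst1 : ∀ v : WithLp 2 (E × E), ∃ f, T f = f ∧ (T' v).fst = T (v.fst + f) := by
    intro v
    refine ⟨-((3 / 2 : ℝ) • fixAvg T v.fst) - (Real.sqrt 3 / 2) • fixAvg T v.snd, ?_, ?_⟩
    · simp only [map_sub, map_neg, map_smul, map_fixAvg T hT3]
    · show (liftLin T v).fst = _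
      rw [liftLin_fst]
      simp only [map_add, map_sub, map_neg, map_smul, map_fixAvg T hT3]
      abel
  have hΩ' : ∀ v ∈ (fun v : WithLp 2 (E × E) => v.fst) ⁻¹' Ω,
      T' v ∉ (fun v : WithLp 2 (E × E) => v.fst) ⁻¹' Ω := by
    intro v hv hTv
    obtain ⟨f, hf, hfst⟩ := hfst1 v
    have h1 : v.fst + f ∈ Ω := hfix _ hv f hf
    have h2 : T (v.fst + f) ∈ Ω := by rw [← hfst]; exact hTv
    exact hΩ _ h1 h2
  have key := threefold_region_bound T' hT'sum ((fun v : WithLp 2 (E × E) => v.fst) ⁻¹' Ω) hΩ'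
    (fun i => (fun v : WithLp 2 (E × E) => v.fst) ⁻¹' A i)
    (fun i => hπc.measurable (hmeas i))
    (fun i j hij => (hdisj hij).preimage _)
    (by
      intro i
      rcases hsub i with h | h | h
      · exact Or.inl (Set.preimage_mono h)
      · right; left
        intro v hv
        obtain ⟨w, hw, hwv0⟩ := h hv
        have hwv : T w = v.fst := hwv0
        refine ⟨T' (T' v), ?_, hT'3 v⟩
        obtain ⟨f1, hf1, e1⟩ := hfst1 v
        obtain ⟨f2, hf2, e2⟩ := hfst1 (T' v)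
        show (T' (T' v)).fst ∈ Ω
        rw [e2, e1, ← hwv]
        have e3 : T (T (T w + f1) + f2) = w + (f1 + f2) := by
          simp only [map_add, hT3, hf1, hf2]
          abel
        rw [e3]
        exact hfix w hw (f1 + f2) (by rw [map_add, hf1, hf2])
      · right; right
        intro v hv
        obtain ⟨u, ⟨w, hw, rfl⟩, hwv0⟩ := h hv
        have hwv : T (T w) = v.fst := hwv0
        refine ⟨T' (T' v), ⟨T' v, ?_, rfl⟩, hT'3 v⟩
        obtain ⟨f1, hf1, e1⟩ := hfst1 v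
        show (T' v).fst ∈ Ω
        rw [e1, ← hwv]
        have e3 : T (T (T w) + f1) = w + f1 := by
          simp only [map_add, hT3, hf1]
        rw [e3]
        exact hfix w hw f1 hf1)
  refine le_trans (Finset.sum_le_sum fun i _ => ?_) key
  exact pow_le_pow_left₀ (norm_nonneg _) (norm_zmom_le_lift (A i) (hmeas i)) 2

end Vale.Agent.Lib.P226
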