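import Vale.Agent.Lib.P226.Lift

/-!
Refinements of a propeller: three unit vectors `a, b, c` with `a + b + c = 0` span a plane and
make angles of 120 degrees; the rotation cycling them fixes the orthogonal complement of the
plane and permutes the three propeller cells.
-/

open MeasureTheory ProbabilityTheory
open scoped RealInnerProductSpace NNReal

namespace Vale.Agent.Lib.P226

variable {E : Type*} [NormedAddCommGroup E] [InnerProductSpace ℝ E]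

/-- The rotation cycling `a → b → c → a`, as a linear map. -/
noncomputable def rotLin (a b c : E) : E →ₗ[ℝ] E :=
  LinearMap.id + (2 / 3 : ℝ) • ((innerₛₗ ℝ a).smulRight (b - a)
    + (innerₛₗ ℝ b).smulRight (c - b) + (innerₛₗ ℝ c).smulRight (a - c))

theorem rotLin_apply (a b c x : E) :
    rotLin a b c x
      = x + (2 / 3 : ℝ) • (⟪a, x⟫ • (b - a) + ⟪b, x⟫ • (c - b) + ⟪c, x⟫ • (a - c)) := by
  simp [rotLin]

section gram

variable {a b c : E} (ha : ‖a‖ = 1) (hb : ‖b‖ = 1) (hc : ‖c‖ = 1) (habc : a + b + c = 0)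

include ha hb hc habc

theorem gram_ab : ⟪a, b⟫ = -1 / 2 := by
  have h : ‖a + b‖ ^ 2 = ‖c‖ ^ 2 := by
    rw [show a + b = -c from eq_neg_of_add_eq_zero_left habc, norm_neg]
  rw [norm_add_sq_real, ha, hb, hc] at h
  linarith

theorem gram_bc : ⟪b, c⟫ = -1 / 2 := by
  have h0 : b + c = -a := by
    have : a + (b + c) = 0 := by rw [← add_assoc]; exact habc
    exact eq_neg_of_add_eq_zero_right this
  have h : ‖b + c‖ ^ 2 = ‖a‖ ^ 2 := by rw [h0, norm_neg]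
  rw [norm_add_sq_real, ha, hb, hc] at h
  linarith

theorem gram_ac : ⟪a, c⟫ = -1 / 2 := by
  have h0 : a + c = -b := by
    have : a + c + b = 0 := by rw [← habc]; abel
    exact eq_neg_of_add_eq_zero_left this
  have h : ‖a + c‖ ^ 2 = ‖b‖ ^ 2 := by rw [h0, norm_neg]
  rw [norm_add_sq_real, ha, hb, hc] at h
  linarith

theorem inner_rotLin (x : E) :
    ⟪a, rotLin a b c x⟫ = ⟪c, x⟫ ∧ ⟪b, rotLin a b c x⟫ = ⟪a, x⟫
      ∧ ⟪c, rotLin a b c x⟫ = ⟪b, x⟫ := by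
  have hab := gram_ab ha hb hc habc
  have hbc := gram_bc ha hb hc habc
  have hac := gram_ac ha hb hc habc
  have hba : ⟪b, a⟫ = -1 / 2 := by rw [real_inner_comm]; exact hab
  have hcb : ⟪c, b⟫ = -1 / 2 := by rw [real_inner_comm]; exact hbc
  have hca : ⟪c, a⟫ = -1 / 2 := by rw [real_inner_comm]; exact hac
  have haa : ⟪a, a⟫ = 1 := by rw [real_inner_self_eq_norm_sq, ha]; norm_num
  have hbb : ⟪b, b⟫ = 1 := by rw [real_inner_self_eq_norm_sq, hb]; norm_num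
  have hcc : ⟪c, c⟫ = 1 := by rw [real_inner_self_eq_norm_sq, hc]; norm_num
  rw [rotLin_apply]
  simp only [inner_add_right, inner_smul_right, inner_sub_right, hab, hbc, hac, hba, hcb, hca,
    haa, hbb, hcc]
  refine ⟨by ring, by ring, by ring⟩

theorem norm_rotLin (x : E) : ‖rotLin a b c x‖ = ‖x‖ := by
  have hab := gram_ab ha hb hc habc
  have hbc := gram_bc ha hb hc habc
  have hac := gram_ac ha hb hc habc
  have hba : ⟪b, a⟫ = -1 / 2 := by rw [real_inner_comm]; exact hab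
  have hcb : ⟪c, b⟫ = -1 / 2 := by rw [real_inner_comm]; exact hbc
  have hca : ⟪c, a⟫ = -1 / 2 := by rw [real_inner_comm]; exact hac
  have haa : ⟪a, a⟫ = 1 := by rw [real_inner_self_eq_norm_sq, ha]; norm_num
  have hbb : ⟪b, b⟫ = 1 := by rw [real_inner_self_eq_norm_sq, hb]; norm_num
  have hcc : ⟪c, c⟫ = 1 := by rw [real_inner_self_eq_norm_sq, hc]; norm_num
  have hxa : ⟪x, a⟫ = ⟪a, x⟫ := real_inner_comm _ _
  have hxb : ⟪x, b⟫ = ⟪b, x⟫ := real_inner_comm _ _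
  have hxc : ⟪x, c⟫ = ⟪c, x⟫ := real_inner_comm _ _
  have key : ‖rotLin a b c x‖ ^ 2 = ‖x‖ ^ 2 := by
    rw [← real_inner_self_eq_norm_sq, ← real_inner_self_eq_norm_sq, rotLin_apply]
    simp only [inner_add_right, inner_add_left, inner_smul_right, inner_smul_left,
      inner_sub_right, inner_sub_left, RCLike.conj_to_real, hab, hbc, hac, hba, hcb, hca,
      haa, hbb, hcc, hxa, hxb, hxc]
    ring
  exact (sq_eq_sq₀ (norm_nonneg _) (norm_nonneg _)).1 key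

theorem rotLin_cube (x : E) : rotLin a b c (rotLin a b c (rotLin a b c x)) = x := by
  obtain ⟨h1, h2, h3⟩ := inner_rotLin ha hb hc habc x
  obtain ⟨k1, k2, k3⟩ := inner_rotLin ha hb hc habc (rotLin a b c x)
  rw [rotLin_apply a b c (rotLin a b c (rotLin a b c x)), k1, k2, k3, h1, h2, h3,
    rotLin_apply a b c (rotLin a b c x), h1, h2, h3, rotLin_apply a b c x]
  module

end gram

variable [FiniteDimensional ℝ E] [MeasurableSpace E] [BorelSpace E]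

/-- The rotation cycling `a → b → c → a`, as a linear isometry equivalence. -/
noncomputable def rotIso {a b c : E} (ha : ‖a‖ = 1) (hb : ‖b‖ = 1) (hc : ‖c‖ = 1)
    (habc : a + b + c = 0) : E ≃ₗᵢ[ℝ] E :=
  (LinearIsometry.mk (rotLin a b c) (norm_rotLin ha hb hc habc)).toLinearIsometryEquiv rfl

omit [MeasurableSpace E] [BorelSpace E] in
theorem rotIso_apply {a b c : E} (ha : ‖a‖ = 1) (hb : ‖b‖ = 1) (hc : ‖c‖ = 1)
    (habc : a + b + c = 0) (x : E) : rotIso ha hb hc habc x = rotLin a b c x := rfl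

/-- Every family of disjoint measurable cells, each inside one of the three cells of the
propeller with unit directions `a, b, c` (`a + b + c = 0`), satisfies the propeller bound. -/
theorem propeller_refinement_bound (a b c : E) (ha : ‖a‖ = 1) (hb : ‖b‖ = 1) (hc : ‖c‖ = 1)
    (habc : a + b + c = 0)
    {ι : Type*} [Fintype ι] (A : ι → Set E) (hmeas : ∀ i, MeasurableSet (A i))
    (hdisj : Pairwise (fun i j => Disjoint (A i) (A j)))
    (hsub : ∀ i, (∀ x ∈ A i, ⟪b, x⟫ < ⟪a, x⟫ ∧ ⟪c, x⟫ < ⟪a, x⟫)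
      ∨ (∀ x ∈ A i, ⟪a, x⟫ < ⟪b, x⟫ ∧ ⟪c, x⟫ < ⟪b, x⟫)
      ∨ (∀ x ∈ A i, ⟪a, x⟫ < ⟪c, x⟫ ∧ ⟪b, x⟫ < ⟪c, x⟫)) :
    ∑ i, ‖zmom (A i)‖ ^ 2 ≤ 9 / (8 * Real.pi) := by
  set T := rotIso ha hb hc habc with hTdef
  have hTa : ∀ x, T x = rotLin a b c x := fun x => rfl
  have hT3 : ∀ x, T (T (T x)) = x := by
    intro x
    rw [hTa, hTa, hTa]
    exact rotLin_cube ha hb hc habc x
  have hin : ∀ x, ⟪a, T x⟫ = ⟪c, x⟫ ∧ ⟪b, T x⟫ = ⟪a, x⟫ ∧ ⟪c, T x⟫ = ⟪b, x⟫ := by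
    intro x
    rw [hTa]
    exact inner_rotLin ha hb hc habc x
  set Ω : Set E := {x | ⟪b, x⟫ < ⟪a, x⟫ ∧ ⟪c, x⟫ < ⟪a, x⟫} with hΩdef
  have hΩ : ∀ x ∈ Ω, T x ∉ Ω := by
    intro x hx hTx
    obtain ⟨h1, h2, h3⟩ := hin x
    have hx' : ⟪b, x⟫ < ⟪a, x⟫ ∧ ⟪c, x⟫ < ⟪a, x⟫ := hx
    have hTx' : ⟪b, T x⟫ < ⟪a, T x⟫ ∧ ⟪c, T x⟫ < ⟪a, T x⟫ := hTx
    rw [h1, h2, h3] at hTx'
    linarith [hx'.2, hTx'.1]
  have hfix : ∀ x ∈ Ω, ∀ f, T f = f → x + f ∈ Ω := by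
    intro x hx f hf
    obtain ⟨h1, h2, h3⟩ := hin f
    rw [hf] at h1 h2 h3
    have hx' : ⟪b, x⟫ < ⟪a, x⟫ ∧ ⟪c, x⟫ < ⟪a, x⟫ := hx
    show ⟪b, x + f⟫ < ⟪a, x + f⟫ ∧ ⟪c, x + f⟫ < ⟪a, x + f⟫
    rw [inner_add_right, inner_add_right, inner_add_right]
    constructor
    · linarith [hx'.1]
    · linarith [hx'.2]
  have hsub' : ∀ i, A i ⊆ Ω ∨ A i ⊆ T '' Ω ∨ A i ⊆ T '' (T '' Ω) := by
    intro i
    rcases hsub i with h | h | h
    · exact Or.inl fun x hx => h x hx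
    · right; left
      intro y hy
      refine ⟨T (T y), ?_, hT3 y⟩
      obtain ⟨h1, h2, h3⟩ := hin y
      obtain ⟨k1, k2, k3⟩ := hin (T y)
      show ⟪b, T (T y)⟫ < ⟪a, T (T y)⟫ ∧ ⟪c, T (T y)⟫ < ⟪a, T (T y)⟫
      rw [k1, k2, k3, h1, h2, h3]
      exact ⟨(h y hy).2, (h y hy).1⟩
    · right; right
      intro y hy
      refine ⟨T (T y), ⟨T y, ?_, rfl⟩, hT3 y⟩
      obtain ⟨h1, h2, h3⟩ := hin y
      show ⟪b, T y⟫ < ⟪a, T y⟫ ∧ ⟪c, T y⟫ < ⟪a, T y⟫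
      rw [h1, h2, h3]
      exact ⟨(h y hy).1, (h y hy).2⟩
  exact threefold_fixed_bound T hT3 Ω hΩ hfix A hmeas hdisj hsub'

end Vale.Agent.Lib.P226
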