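import Vale.Agent.Lib.P226.Symmetric

/-!
The two concrete region systems for P226: the antipodal map (order two) and a linear isometry of
order three without nonzero fixed vector.
-/

open MeasureTheory ProbabilityTheory
open scoped RealInnerProductSpace NNReal

namespace Vale.Agent.Lib.P226

variable {E : Type*} [NormedAddCommGroup E] [InnerProductSpace ℝ E] [FiniteDimensional ℝ E]
  [MeasurableSpace E] [BorelSpace E]

theorem integral_Ioi_mul_exp_aux :
    (∫ x in Set.Ioi (0 : ℝ), x * Real.exp (-(x ^ 2 / 2))) = 1 := by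
  have hderiv : ∀ x ∈ Set.Ici (0 : ℝ), HasDerivAt (fun x : ℝ => -Real.exp (-(x ^ 2 / 2)))
      (x * Real.exp (-(x ^ 2 / 2))) x := by
    intro x _
    have h1 : HasDerivAt (fun x : ℝ => -(x ^ 2 / 2)) (-x) x :=
      (((hasDerivAt_pow 2 x).div_const 2).neg).congr_deriv (by norm_num)
    exact ((h1.exp).neg).congr_deriv (by ring)
  have hpos : ∀ x ∈ Set.Ioi (0 : ℝ), 0 ≤ x * Real.exp (-(x ^ 2 / 2)) :=
    fun x hx => mul_nonneg (le_of_lt hx) (Real.exp_pos _).le
  have htend : Filter.Tendsto (fun x : ℝ => -Real.exp (-(x ^ 2 / 2))) Filter.atTop (nhds 0) := by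
    have h1 : Filter.Tendsto (fun x : ℝ => x ^ 2 / 2) Filter.atTop Filter.atTop :=
      (Filter.tendsto_pow_atTop (by norm_num : (2 : ℕ) ≠ 0)).atTop_div_const (by norm_num)
    have h2 := (Real.tendsto_exp_neg_atTop_nhds_zero.comp h1).neg
    simpa using h2
  have := integral_Ioi_of_hasDerivAt_of_nonneg' hderiv hpos htend
  simpa using this

theorem integral_abs_gaussianReal_std :
    ∫ t, |t| ∂(gaussianReal 0 1) = Real.sqrt (2 / Real.pi) := by
  rw [integral_gaussianReal_eq_integral_smul (by norm_num : (1 : ℝ≥0) ≠ 0)]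
  have e : ∀ x : ℝ, gaussianPDFReal 0 1 x • |x|
      = (Real.sqrt (2 * Real.pi))⁻¹ * (|x| * Real.exp (-(|x| ^ 2 / 2))) := by
    intro x
    rw [gaussianPDFReal_def]
    beta_reduce
    have hx : -(x - 0) ^ 2 / (2 * ((1 : ℝ≥0) : ℝ)) = -(|x| ^ 2 / 2) := by
      rw [sq_abs]; simp; ring
    rw [hx]
    simp only [NNReal.coe_one, mul_one, smul_eq_mul]
    ring
  have h : (∫ x : ℝ, gaussianPDFReal 0 1 x • |x|)
      = ∫ x : ℝ, (fun y : ℝ => (Real.sqrt (2 * Real.pi))⁻¹ * (y * Real.exp (-(y ^ 2 / 2)))) |x| :=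
    integral_congr_ae (Filter.Eventually.of_forall e)
  rw [h, integral_comp_abs
    (f := fun y : ℝ => (Real.sqrt (2 * Real.pi))⁻¹ * (y * Real.exp (-(y ^ 2 / 2)))),
    integral_const_mul, integral_Ioi_mul_exp_aux, mul_one]
  have hpi : 0 < Real.pi := Real.pi_pos
  have h1 : Real.sqrt (2 * Real.pi) = Real.sqrt 2 * Real.sqrt Real.pi :=
    Real.sqrt_mul (by norm_num) _
  have h2 : Real.sqrt (2 / Real.pi) = Real.sqrt 2 / Real.sqrt Real.pi :=
    Real.sqrt_div (by norm_num) _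
  have h3 : Real.sqrt 2 * Real.sqrt 2 = 2 := Real.mul_self_sqrt (by norm_num)
  have h4 : 0 < Real.sqrt 2 := Real.sqrt_pos.2 (by norm_num)
  have h5 : 0 < Real.sqrt Real.pi := Real.sqrt_pos.2 hpi
  rw [h1, h2]
  field_simp
  linarith

/-- Absolute first moment of a linear form under the standard Gaussian measure. -/
theorem integral_abs_inner (v : E) :
    ∫ x, |⟪v, x⟫| ∂(stdGaussian E) = Real.sqrt (2 / Real.pi) * ‖v‖ := by
  have hmap := map_inner_stdGaussian v
  have hmeas : Measurable (fun x : E => ⟪v, x⟫) := by fun_prop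
  have h1 : ∫ x, |⟪v, x⟫| ∂(stdGaussian E)
      = ∫ y, |y| ∂((stdGaussian E).map (fun x => ⟪v, x⟫)) := by
    rw [integral_map hmeas.aemeasurable (by fun_prop)]
  have h2 : gaussianReal 0 (Real.toNNReal (‖v‖ ^ 2))
      = (gaussianReal 0 1).map (fun t => ‖v‖ * t) := by
    rw [gaussianReal_map_const_mul]
    congr 1
    · simp
    · rw [mul_one, Real.toNNReal_of_nonneg (sq_nonneg _)]
  rw [h1, hmap, h2, integral_map (by fun_prop) (by fun_prop)]
  simp only [abs_mul, abs_norm]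
  rw [integral_const_mul, integral_abs_gaussianReal_std, mul_comm]

/-- The sign action of `Fin 2`. -/
noncomputable def signIso (a : Fin 2) : E ≃ₗᵢ[ℝ] E :=
  if a = 0 then LinearIsometryEquiv.refl ℝ E else LinearIsometryEquiv.neg ℝ

theorem signIso_zero (x : E) : signIso (0 : Fin 2) x = x := by
  simp [signIso]

theorem signIso_one (x : E) : signIso (1 : Fin 2) x = -x := by
  simp [signIso]

/-- Odd regions: if `Ω` contains no pair of antipodal points and every cell lies in `Ω` or in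
`-Ω`, the sum of squared first moments is at most `1 / π`. -/
theorem odd_region_bound (Ω : Set E) (hΩ : ∀ x ∈ Ω, -x ∉ Ω)
    {ι : Type*} [Fintype ι] (A : ι → Set E) (hmeas : ∀ i, MeasurableSet (A i))
    (hdisj : Pairwise (fun i j => Disjoint (A i) (A j)))
    (hsub : ∀ i, (∀ x ∈ A i, x ∈ Ω) ∨ (∀ x ∈ A i, -x ∈ Ω)) :
    ∑ i, ‖zmom (A i)‖ ^ 2 ≤ 1 / Real.pi := by
  have hU : ∀ (a b : Fin 2) (x : E), signIso (a + b) x = signIso a (signIso b x) := by
    intro a b x
    fin_cases a <;> fin_cases b <;> simp [signIso]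
  have hsum : ∀ v : E, ∑ a : Fin 2, signIso a v = 0 := by
    intro v
    rw [Fin.sum_univ_two, signIso_zero, signIso_one]
    simp
  have h01 : Disjoint ((signIso (0 : Fin 2) : E → E) '' Ω) ((signIso (1 : Fin 2) : E → E) '' Ω) := by
    rw [Set.disjoint_left]
    rintro x ⟨y, hy, rfl⟩ ⟨w, hw, hwx⟩
    rw [signIso_zero, signIso_one] at hwx
    exact hΩ w hw (hwx ▸ hy)
  have hΩ' : ∀ a b : Fin 2, a ≠ b →
      Disjoint ((signIso a : E → E) '' Ω) ((signIso b : E → E) '' Ω) := by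
    intro a b hab
    fin_cases a <;> fin_cases b
    · exact absurd rfl hab
    · exact h01
    · exact h01.symm
    · exact absurd rfl hab
  have hc : ∀ v : E, ∃ g : E → ℝ, Integrable g (stdGaussian E) ∧ (∀ x, 0 ≤ g x) ∧
      (∀ (a : Fin 2) x, ⟪signIso a v, x⟫ ≤ g x) ∧
      ∫ x, g x ∂(stdGaussian E) ≤ Real.sqrt (2 / Real.pi) * ‖v‖ := by
    intro v
    refine ⟨fun x => |⟪v, x⟫|, (integrable_inner v).abs, fun x => abs_nonneg _, ?_,
      (integral_abs_inner v).le⟩
    intro a x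
    fin_cases a
    · rw [show ((⟨0, by norm_num⟩ : Fin 2)) = 0 from rfl, signIso_zero]
      exact le_abs_self _
    · rw [show ((⟨1, by norm_num⟩ : Fin 2)) = 1 from rfl, signIso_one, inner_neg_left]
      exact neg_le_abs _
  have hsub' : ∀ i, ∃ a : Fin 2, A i ⊆ (signIso a : E → E) '' Ω := by
    intro i
    rcases hsub i with h | h
    · exact ⟨0, fun x hx => ⟨x, h x hx, signIso_zero x⟩⟩
    · exact ⟨1, fun x hx => ⟨-x, h x hx, by rw [signIso_one, neg_neg]⟩⟩
  have key := region_bound signIso hU hsum Ω hΩ' (Real.sqrt (2 / Real.pi)) hc A hmeas hdisj hsub'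
  have hpi : 0 < Real.pi := Real.pi_pos
  rw [Real.sq_sqrt (by positivity), Fintype.card_fin] at key
  have e : 2 / Real.pi / ((2 : ℕ) : ℝ) = 1 / Real.pi := by
    push_cast
    field_simp
  rw [e] at key
  exact key

/-- The action of `Fin 3` by the powers of a linear isometry. -/
noncomputable def cubeIso (T : E ≃ₗᵢ[ℝ] E) (a : Fin 3) : E ≃ₗᵢ[ℝ] E :=
  if a = 0 then LinearIsometryEquiv.refl ℝ E else if a = 1 then T else T.trans T

omit [FiniteDimensional ℝ E] [MeasurableSpace E] [BorelSpace E] in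
theorem cubeIso_zero (T : E ≃ₗᵢ[ℝ] E) (x : E) : cubeIso T (0 : Fin 3) x = x := by
  simp [cubeIso]

omit [FiniteDimensional ℝ E] [MeasurableSpace E] [BorelSpace E] in
theorem cubeIso_one (T : E ≃ₗᵢ[ℝ] E) (x : E) : cubeIso T (1 : Fin 3) x = T x := by
  simp [cubeIso]

omit [FiniteDimensional ℝ E] [MeasurableSpace E] [BorelSpace E] in
theorem cubeIso_two (T : E ≃ₗᵢ[ℝ] E) (x : E) : cubeIso T (2 : Fin 3) x = T (T x) := by
  simp [cubeIso]

theorem max3_add_max3_neg (a b c : ℝ) :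
    max (max a b) c + max (max (-a) (-b)) (-c) = (|a - b| + |b - c| + |a - c|) / 2 := by
  simp only [max_def, abs_eq_max_neg]
  split_ifs <;> linarith

omit [FiniteDimensional ℝ E] [MeasurableSpace E] [BorelSpace E] in
theorem cube_fixed (T : E ≃ₗᵢ[ℝ] E) (hT : ∀ x, x + T x + T (T x) = 0) (x : E) :
    T (T (T x)) = x := by
  have h1 := hT x
  have h2 := hT (T x)
  have h3 : T (T (T x)) = (T x + T (T x) + T (T (T x))) - (x + T x + T (T x)) + x := by abel
  rw [h3, h1, h2]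
  simp

omit [FiniteDimensional ℝ E] [MeasurableSpace E] [BorelSpace E] in
theorem norm_sub_map (T : E ≃ₗᵢ[ℝ] E) (hT : ∀ x, x + T x + T (T x) = 0) (v : E) :
    ‖v - T v‖ = Real.sqrt 3 * ‖v‖ := by
  have h1 : ‖v + T v‖ ^ 2 = ‖v‖ ^ 2 := by
    have : v + T v = -(T (T v)) := by
      have := hT v
      exact eq_neg_of_add_eq_zero_left this
    rw [this, norm_neg, LinearIsometryEquiv.norm_map, LinearIsometryEquiv.norm_map]
  have h2 : ‖v + T v‖ ^ 2 = ‖v‖ ^ 2 + 2 * ⟪v, T v⟫ + ‖v‖ ^ 2 := by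
    rw [norm_add_sq_real, LinearIsometryEquiv.norm_map]
  have h3 : ‖v - T v‖ ^ 2 = ‖v‖ ^ 2 - 2 * ⟪v, T v⟫ + ‖v‖ ^ 2 := by
    rw [norm_sub_sq_real, LinearIsometryEquiv.norm_map]
  have h4 : ‖v - T v‖ ^ 2 = 3 * ‖v‖ ^ 2 := by linarith
  have h5 : ‖v - T v‖ = Real.sqrt (3 * ‖v‖ ^ 2) := by
    rw [← h4, Real.sqrt_sq (norm_nonneg _)]
  rw [h5, Real.sqrt_mul (by norm_num), Real.sqrt_sq (norm_nonneg _)]

/-- Expected maximum of the three linear forms of an orbit of order three. -/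
theorem integral_max3 (T : E ≃ₗᵢ[ℝ] E) (hT : ∀ x, x + T x + T (T x) = 0) (v : E) :
    ∫ x, max (max ⟪v, x⟫ ⟪T v, x⟫) ⟪T (T v), x⟫ ∂(stdGaussian E)
      = 3 / 4 * Real.sqrt (2 / Real.pi) * Real.sqrt 3 * ‖v‖ := by
  set γ := stdGaussian E
  set g : E → ℝ := fun x => max (max ⟪v, x⟫ ⟪T v, x⟫) ⟪T (T v), x⟫ with hg
  have hgint : Integrable g γ :=
    ((integrable_inner v).sup (integrable_inner (T v))).sup (integrable_inner (T (T v)))
  have hneg : ∫ x, g (-x) ∂γ = ∫ x, g x ∂γ := by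
    have hmap : γ.map (LinearIsometryEquiv.neg ℝ : E ≃ₗᵢ[ℝ] E) = γ :=
      stdGaussian_map (LinearIsometryEquiv.neg ℝ)
    have hme : MeasurableEmbedding (LinearIsometryEquiv.neg ℝ : E ≃ₗᵢ[ℝ] E) :=
      (LinearIsometryEquiv.neg ℝ : E ≃ₗᵢ[ℝ] E).toHomeomorph.measurableEmbedding
    have h := hme.integral_map (μ := γ) g
    rw [hmap] at h
    rw [h]
    rfl
  have hgneg : Integrable (fun x => g (-x)) γ := by
    have h1 : Integrable (fun x : E => max (max (-⟪v, x⟫) (-⟪T v, x⟫)) (-⟪T (T v), x⟫)) γ :=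
      ((integrable_inner v).neg.sup (integrable_inner (T v)).neg).sup
        (integrable_inner (T (T v))).neg
    refine h1.congr (Filter.Eventually.of_forall fun x => ?_)
    simp only [hg, inner_neg_right]
  have hsumfun : ∀ x, g x + g (-x)
      = (|⟪v - T v, x⟫| + |⟪T v - T (T v), x⟫| + |⟪v - T (T v), x⟫|) / 2 := by
    intro x
    simp only [hg, inner_neg_right, inner_sub_left]
    exact max3_add_max3_neg _ _ _
  have hA : Integrable (fun x : E => |⟪v - T v, x⟫|) γ := (integrable_inner _).abs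
  have hB : Integrable (fun x : E => |⟪T v - T (T v), x⟫|) γ := (integrable_inner _).abs
  have hC : Integrable (fun x : E => |⟪v - T (T v), x⟫|) γ := (integrable_inner _).abs
  have hAB : Integrable (fun x : E => |⟪v - T v, x⟫| + |⟪T v - T (T v), x⟫|) γ := hA.add hB
  have h1 : ∫ x, g x ∂γ + ∫ x, g (-x) ∂γ
      = (∫ x, |⟪v - T v, x⟫| ∂γ + ∫ x, |⟪T v - T (T v), x⟫| ∂γ
          + ∫ x, |⟪v - T (T v), x⟫| ∂γ) / 2 := by
    rw [← integral_add hgint hgneg, ← integral_add hA hB, ← integral_add hAB hC,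
      ← integral_div]
    exact integral_congr_ae (Filter.Eventually.of_forall hsumfun)
  have n1 : ‖v - T v‖ = Real.sqrt 3 * ‖v‖ := norm_sub_map T hT v
  have n2 : ‖T v - T (T v)‖ = Real.sqrt 3 * ‖v‖ := by
    rw [norm_sub_map T hT (T v), LinearIsometryEquiv.norm_map]
  have n3 : ‖v - T (T v)‖ = Real.sqrt 3 * ‖v‖ := by
    have h := norm_sub_map T hT (T (T v))
    rw [cube_fixed T hT v, LinearIsometryEquiv.norm_map, LinearIsometryEquiv.norm_map] at h
    rw [norm_sub_rev]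
    exact h
  rw [hneg, integral_abs_inner, integral_abs_inner, integral_abs_inner, n1, n2, n3] at h1
  linarith

/-- Threefold regions: if `T` is a linear isometry with `x + T x + T (T x) = 0` for all `x`, the
region `Ω` is disjoint from `T '' Ω`, and every cell lies in one of `Ω`, `T '' Ω`,
`T '' (T '' Ω)`, then the sum of squared first moments is at most `9 / (8 π)`. -/
theorem threefold_region_bound (T : E ≃ₗᵢ[ℝ] E) (hT : ∀ x, x + T x + T (T x) = 0)
    (Ω : Set E) (hΩ : ∀ x ∈ Ω, T x ∉ Ω)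
    {ι : Type*} [Fintype ι] (A : ι → Set E) (hmeas : ∀ i, MeasurableSet (A i))
    (hdisj : Pairwise (fun i j => Disjoint (A i) (A j)))
    (hsub : ∀ i, A i ⊆ Ω ∨ A i ⊆ T '' Ω ∨ A i ⊆ T '' (T '' Ω)) :
    ∑ i, ‖zmom (A i)‖ ^ 2 ≤ 9 / (8 * Real.pi) := by
  have hT3 := cube_fixed T hT
  have hU : ∀ (a b : Fin 3) (x : E), cubeIso T (a + b) x = cubeIso T a (cubeIso T b x) := by
    intro a b x
    fin_cases a <;> fin_cases b <;> simp [cubeIso, hT3]
  have hsum : ∀ v : E, ∑ a : Fin 3, cubeIso T a v = 0 := by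
    intro v
    rw [Fin.sum_univ_three, cubeIso_zero, cubeIso_one, cubeIso_two]
    exact hT v
  have i0 : (cubeIso T (0 : Fin 3) : E → E) '' Ω = Ω := by
    ext x
    constructor
    · rintro ⟨y, hy, rfl⟩
      rw [cubeIso_zero]; exact hy
    · intro hx
      exact ⟨x, hx, cubeIso_zero T x⟩
  have i1 : (cubeIso T (1 : Fin 3) : E → E) '' Ω = T '' Ω :=
    Set.image_congr fun x _ => cubeIso_one T x
  have i2 : (cubeIso T (2 : Fin 3) : E → E) '' Ω = T '' (T '' Ω) := by
    rw [Set.image_image]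
    exact Set.image_congr fun x _ => cubeIso_two T x
  have h01 : Disjoint Ω (T '' Ω) := by
    rw [Set.disjoint_left]
    rintro x hx ⟨y, hy, rfl⟩
    exact hΩ y hy hx
  have h02 : Disjoint Ω (T '' (T '' Ω)) := by
    rw [Set.disjoint_left]
    rintro x hx ⟨w, ⟨y, hy, rfl⟩, rfl⟩
    have : T (T (T y)) ∉ Ω := hΩ _ hx
    rw [hT3] at this
    exact this hy
  have h12 : Disjoint (T '' Ω) (T '' (T '' Ω)) :=
    (Set.disjoint_image_iff T.injective).2 h01
  have d01 : Disjoint ((cubeIso T (0 : Fin 3) : E → E) '' Ω)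
      ((cubeIso T (1 : Fin 3) : E → E) '' Ω) := by
    rw [i0, i1]; exact h01
  have d02 : Disjoint ((cubeIso T (0 : Fin 3) : E → E) '' Ω)
      ((cubeIso T (2 : Fin 3) : E → E) '' Ω) := by
    rw [i0, i2]; exact h02
  have d12 : Disjoint ((cubeIso T (1 : Fin 3) : E → E) '' Ω)
      ((cubeIso T (2 : Fin 3) : E → E) '' Ω) := by
    rw [i1, i2]; exact h12
  have hΩ' : ∀ a b : Fin 3, a ≠ b →
      Disjoint ((cubeIso T a : E → E) '' Ω) ((cubeIso T b : E → E) '' Ω) := by
    intro a b hab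
    fin_cases a <;> fin_cases b
    · exact absurd rfl hab
    · exact d01
    · exact d02
    · exact d01.symm
    · exact absurd rfl hab
    · exact d12
    · exact d02.symm
    · exact d12.symm
    · exact absurd rfl hab
  have hc : ∀ v : E, ∃ g : E → ℝ, Integrable g (stdGaussian E) ∧ (∀ x, 0 ≤ g x) ∧
      (∀ (a : Fin 3) x, ⟪cubeIso T a v, x⟫ ≤ g x) ∧
      ∫ x, g x ∂(stdGaussian E) ≤ 3 / 4 * Real.sqrt (2 / Real.pi) * Real.sqrt 3 * ‖v‖ := by
    intro v
    refine ⟨fun x => max (max ⟪v, x⟫ ⟪T v, x⟫) ⟪T (T v), x⟫,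
      ((integrable_inner v).sup (integrable_inner (T v))).sup (integrable_inner (T (T v))),
      ?_, ?_, (integral_max3 T hT v).le⟩
    · intro x
      have hs : ⟪v, x⟫ + ⟪T v, x⟫ + ⟪T (T v), x⟫ = 0 := by
        rw [← inner_add_left, ← inner_add_left, hT, inner_zero_left]
      by_contra hneg
      have hlt := not_le.1 hneg
      have h1 := (max_lt_iff.1 hlt).1
      have h2 := (max_lt_iff.1 hlt).2
      have h3 := (max_lt_iff.1 h1).1
      have h4 := (max_lt_iff.1 h1).2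
      linarith
    · intro a x
      fin_cases a
      · rw [show ((⟨0, by norm_num⟩ : Fin 3)) = 0 from rfl, cubeIso_zero]
        exact le_max_of_le_left (le_max_left _ _)
      · rw [show ((⟨1, by norm_num⟩ : Fin 3)) = 1 from rfl, cubeIso_one]
        exact le_max_of_le_left (le_max_right _ _)
      · rw [show ((⟨2, by norm_num⟩ : Fin 3)) = 2 from rfl, cubeIso_two]
        exact le_max_right _ _
  have hsub' : ∀ i, ∃ a : Fin 3, A i ⊆ (cubeIso T a : E → E) '' Ω := by
    intro i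
    rcases hsub i with h | h | h
    · exact ⟨0, by rw [i0]; exact h⟩
    · exact ⟨1, by rw [i1]; exact h⟩
    · exact ⟨2, by rw [i2]; exact h⟩
  have key := region_bound (cubeIso T) hU hsum Ω hΩ'
    (3 / 4 * Real.sqrt (2 / Real.pi) * Real.sqrt 3) hc A hmeas hdisj hsub'
  have hpi : 0 < Real.pi := Real.pi_pos
  have e : (3 / 4 * Real.sqrt (2 / Real.pi) * Real.sqrt 3) ^ 2 / ((Fintype.card (Fin 3) : ℕ) : ℝ)
      = 9 / (8 * Real.pi) := by
    rw [Fintype.card_fin]
    have s1 : Real.sqrt (2 / Real.pi) ^ 2 = 2 / Real.pi := Real.sq_sqrt (by positivity)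
    have s2 : Real.sqrt 3 ^ 2 = 3 := Real.sq_sqrt (by norm_num)
    rw [mul_pow, mul_pow, s1, s2]
    push_cast
    field_simp
    ring
  rw [e] at key
  exact key

end Vale.Agent.Lib.P226
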