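import Mathlib

/-!
One-dimensional Gaussian estimates for `hfun s = E (g - s)₊`, `g` a standard Gaussian.
-/

open MeasureTheory ProbabilityTheory Set Filter
open scoped NNReal Topology

namespace Vale.Agent.Lib.P226

/-- The value at `0` of the standard Gaussian density. -/
noncomputable def phi0 : ℝ := (Real.sqrt (2 * Real.pi))⁻¹

/-- `hfun s = E (g - s)₊` for a standard Gaussian `g`. -/
noncomputable def hfun (s : ℝ) : ℝ := ∫ x, max (x - s) 0 ∂(gaussianReal 0 1)

lemma phi0_pos : 0 < phi0 := by unfold phi0; positivity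

lemma phi0_mul_sqrt : phi0 * Real.sqrt (2 * Real.pi) = 1 := by
  unfold phi0
  have : 0 < Real.sqrt (2 * Real.pi) := by positivity
  field_simp

lemma pdf_eq (x : ℝ) : gaussianPDFReal 0 1 x = phi0 * Real.exp (-(x ^ 2 / 2)) := by
  rw [gaussianPDFReal_def]
  simp only [phi0, NNReal.coe_one, mul_one, sub_zero]
  congr 2
  ring

lemma integrable_posPart (s : ℝ) :
    Integrable (fun x : ℝ => max (x - s) 0) (gaussianReal 0 1) := by
  have hmem : MemLp (id : ℝ → ℝ) 1 (gaussianReal 0 1) := by
    simpa using memLp_id_gaussianReal (μ := 0) (v := 1) 1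
  have hid' : Integrable (id : ℝ → ℝ) (gaussianReal 0 1) := memLp_one_iff_integrable.1 hmem
  have hid : Integrable (fun x : ℝ => x) (gaussianReal 0 1) := hid'
  refine (hid.norm.add (integrable_const |s|)).mono' (by fun_prop)
    (Eventually.of_forall fun x => ?_)
  rw [Real.norm_eq_abs, abs_of_nonneg (le_max_right _ _)]
  simp only [Real.norm_eq_abs]
  have h1 : x - s ≤ |x| + |s| := by
    have := le_abs_self x
    have := neg_abs_le s
    linarith
  have h2 : (0 : ℝ) ≤ |x| + |s| := by positivity
  exact max_le h1 h2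

lemma hfun_nonneg (s : ℝ) : 0 ≤ hfun s :=
  integral_nonneg fun x => le_max_right _ _

/-- `hfun` is nonincreasing. -/
lemma hfun_anti {s t : ℝ} (hst : s ≤ t) : hfun t ≤ hfun s := by
  unfold hfun
  apply integral_mono (integrable_posPart t) (integrable_posPart s)
  intro x
  exact max_le_max (by linarith) le_rfl

/-- Convexity of `hfun` in chord form. -/
lemma hfun_chord {a b s : ℝ} (hab : a < b) (has : a ≤ s) (hsb : s ≤ b) :
    hfun s ≤ ((b - s) * hfun a + (s - a) * hfun b) / (b - a) := by
  have hba : 0 < b - a := by linarith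
  rw [le_div_iff₀ hba]
  have h1 : 0 ≤ b - s := by linarith
  have h2 : 0 ≤ s - a := by linarith
  have key : ∀ x : ℝ, max (x - s) 0 * (b - a)
      ≤ (b - s) * max (x - a) 0 + (s - a) * max (x - b) 0 := by
    intro x
    have ha : x - a ≤ max (x - a) 0 := le_max_left _ _
    have hb : x - b ≤ max (x - b) 0 := le_max_left _ _
    have ha0 : (0 : ℝ) ≤ max (x - a) 0 := le_max_right _ _
    have hb0 : (0 : ℝ) ≤ max (x - b) 0 := le_max_right _ _
    rcases le_total (x - s) 0 with h | h
    · rw [max_eq_right h, zero_mul]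
      exact add_nonneg (mul_nonneg h1 ha0) (mul_nonneg h2 hb0)
    · rw [max_eq_left h]
      nlinarith [mul_le_mul_of_nonneg_left ha h1, mul_le_mul_of_nonneg_left hb h2]
  have hI : ∫ x, ((b - s) * max (x - a) 0 + (s - a) * max (x - b) 0) ∂(gaussianReal 0 1)
      = (b - s) * hfun a + (s - a) * hfun b := by
    rw [integral_add ((integrable_posPart a).const_mul _) ((integrable_posPart b).const_mul _),
      integral_const_mul, integral_const_mul]
    rfl
  have hL : ∫ x, max (x - s) 0 * (b - a) ∂(gaussianReal 0 1) = hfun s * (b - a) :=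
    integral_mul_const _ _
  calc hfun s * (b - a) = ∫ x, max (x - s) 0 * (b - a) ∂(gaussianReal 0 1) := hL.symm
    _ ≤ ∫ x, ((b - s) * max (x - a) 0 + (s - a) * max (x - b) 0) ∂(gaussianReal 0 1) :=
        integral_mono ((integrable_posPart s).mul_const _)
          (((integrable_posPart a).const_mul _).add ((integrable_posPart b).const_mul _)) key
    _ = (b - s) * hfun a + (s - a) * hfun b := hI

/-- Chernoff-type bound: `s * hfun s ≤ exp (-(1 + s² / 2))` for `s > 0`. -/
lemma hfun_chernoff {s : ℝ} (hs : 0 < s) : s * hfun s ≤ Real.exp (-(1 + s ^ 2 / 2)) := by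
  have hint : Integrable (fun x : ℝ => Real.exp (s * x) * (Real.exp (-(s ^ 2 + 1)) / s))
      (gaussianReal 0 1) := (integrable_exp_mul_gaussianReal s).mul_const _
  have hle : hfun s ≤ ∫ x, Real.exp (s * x) * (Real.exp (-(s ^ 2 + 1)) / s) ∂(gaussianReal 0 1) := by
    unfold hfun
    apply integral_mono (integrable_posPart s) hint
    intro x
    simp only
    have hpos : 0 < Real.exp (s * x) * (Real.exp (-(s ^ 2 + 1)) / s) := by positivity
    have e : Real.exp (s * x) * (Real.exp (-(s ^ 2 + 1)) / s)
        = Real.exp (s * (x - s) - 1) / s := by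
      rw [← mul_div_assoc, ← Real.exp_add]; congr 2; ring
    refine max_le ?_ hpos.le
    rw [e, le_div_iff₀ hs]
    have := Real.add_one_le_exp (s * (x - s) - 1)
    linarith
  have hmgf : ∫ x, Real.exp (s * x) ∂(gaussianReal 0 1) = Real.exp (s ^ 2 / 2) := by
    have h := congrFun (mgf_id_gaussianReal (μ := 0) (v := 1)) s
    simp only [mgf, id] at h
    rw [h]; congr 1; simp
  rw [integral_mul_const, hmgf] at hle
  have e2 : Real.exp (s ^ 2 / 2) * (Real.exp (-(s ^ 2 + 1)) / s)
      = Real.exp (-(1 + s ^ 2 / 2)) / s := by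
    rw [← mul_div_assoc, ← Real.exp_add]; congr 2; ring
  rw [e2] at hle
  calc s * hfun s ≤ s * (Real.exp (-(1 + s ^ 2 / 2)) / s) :=
        mul_le_mul_of_nonneg_left hle hs.le
    _ = Real.exp (-(1 + s ^ 2 / 2)) := by field_simp

end Vale.Agent.Lib.P226
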