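import Vale.Agent.Lib.P226.Tail

open MeasureTheory ProbabilityTheory Set Filter
open scoped NNReal Topology

namespace Vale.Agent.Lib.P226

lemma integral_Ioi_exp :
    (∫ x in Ioi (0 : ℝ), Real.exp (-(x ^ 2 / 2))) = Real.sqrt (2 * Real.pi) / 2 := by
  have h := integral_gaussian_Ioi (1 / 2)
  have e : (fun x : ℝ => Real.exp (-(1 / 2) * x ^ 2)) = fun x => Real.exp (-(x ^ 2 / 2)) := by
    funext x; congr 1; ring
  rw [e] at h
  rw [h]
  congr 2
  field_simp

lemma integral_Ioi_mul_exp : (∫ x in Ioi (0 : ℝ), x * Real.exp (-(x ^ 2 / 2))) = 1 := by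
  have hderiv : ∀ x ∈ Ici (0 : ℝ), HasDerivAt (fun x : ℝ => -Real.exp (-(x ^ 2 / 2)))
      (x * Real.exp (-(x ^ 2 / 2))) x := by
    intro x _
    have h1 : HasDerivAt (fun x : ℝ => -(x ^ 2 / 2)) (-x) x :=
      (((hasDerivAt_pow 2 x).div_const 2).neg).congr_deriv (by norm_num)
    exact ((h1.exp).neg).congr_deriv (by ring)
  have hpos : ∀ x ∈ Ioi (0 : ℝ), 0 ≤ x * Real.exp (-(x ^ 2 / 2)) :=
    fun x hx => mul_nonneg (le_of_lt hx) (Real.exp_pos _).le
  have htend : Tendsto (fun x : ℝ => -Real.exp (-(x ^ 2 / 2))) atTop (𝓝 0) := by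
    have h1 : Tendsto (fun x : ℝ => x ^ 2 / 2) atTop atTop :=
      (tendsto_pow_atTop (by norm_num : (2 : ℕ) ≠ 0)).atTop_div_const (by norm_num)
    have h2 := (Real.tendsto_exp_neg_atTop_nhds_zero.comp h1).neg
    simpa using h2
  have := integral_Ioi_of_hasDerivAt_of_nonneg' hderiv hpos htend
  simpa using this

lemma integrable_exp_sq : Integrable (fun x : ℝ => Real.exp (-(x ^ 2 / 2))) := by
  have h := integrable_exp_neg_mul_sq (b := 1 / 2) (by norm_num)
  have e : (fun x : ℝ => Real.exp (-(1 / 2) * x ^ 2)) = fun x => Real.exp (-(x ^ 2 / 2)) := by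
    funext x; congr 1; ring
  rwa [e] at h

lemma integrable_mul_exp_sq : Integrable (fun x : ℝ => x * Real.exp (-(x ^ 2 / 2))) := by
  have h := integrable_mul_exp_neg_mul_sq (b := 1 / 2) (by norm_num)
  have e : (fun x : ℝ => x * Real.exp (-(1 / 2) * x ^ 2))
      = fun x => x * Real.exp (-(x ^ 2 / 2)) := by
    funext x; congr 2; ring
  rwa [e] at h

/-- Closed form of `hfun` on `[0, ∞)` up to an explicit interval integral. -/
lemma hfun_eq {s : ℝ} (hs : 0 ≤ s) :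
    hfun s = phi0 - s / 2
      + phi0 * (∫ x in (0 : ℝ)..s, (s - x) * Real.exp (-(x ^ 2 / 2))) := by
  set F : ℝ → ℝ := fun x => (x - s) * Real.exp (-(x ^ 2 / 2)) with hF
  have hFint : Integrable F := by
    have := integrable_mul_exp_sq.sub (integrable_exp_sq.const_mul s)
    refine this.congr (Eventually.of_forall fun x => ?_)
    simp only [hF, Pi.sub_apply]; ring
  have h0 : hfun s = phi0 * (∫ x in Ioi s, F x) := by
    unfold hfun
    rw [integral_gaussianReal_eq_integral_smul (by norm_num : (1 : ℝ≥0) ≠ 0),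
      ← integral_const_mul, ← integral_indicator measurableSet_Ioi]
    congr 1
    funext x
    simp only [smul_eq_mul, pdf_eq, hF, Set.indicator_apply, mem_Ioi]
    by_cases hx : s < x
    · rw [if_pos hx, max_eq_left (by linarith)]; ring
    · rw [if_neg hx, max_eq_right (by linarith)]; ring
  have h2 : (∫ x in Ioi s, F x) = (∫ x in Ioi (0 : ℝ), F x) - (∫ x in (0 : ℝ)..s, F x) := by
    have this : (∫ x in Ioi (0 : ℝ), F x) - (∫ x in Ioi s, F x) = ∫ x in (0 : ℝ)..s, F x :=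
      intervalIntegral.integral_Ioi_sub_Ioi (f := F) (a := 0) (b := s) hFint.integrableOn hs
    linarith
  have h3 : (∫ x in Ioi (0 : ℝ), F x) = 1 - s * (Real.sqrt (2 * Real.pi) / 2) := by
    have e : F = fun x => x * Real.exp (-(x ^ 2 / 2)) - s * Real.exp (-(x ^ 2 / 2)) := by
      funext x; simp only [hF]; ring
    rw [e, integral_sub integrable_mul_exp_sq.integrableOn
      (integrable_exp_sq.const_mul s).integrableOn, integral_const_mul, integral_Ioi_mul_exp,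
      integral_Ioi_exp]
  have h4 : (∫ x in (0 : ℝ)..s, F x)
      = -(∫ x in (0 : ℝ)..s, (s - x) * Real.exp (-(x ^ 2 / 2))) := by
    rw [← intervalIntegral.integral_neg]
    congr 1
    funext x
    simp only [hF]; ring
  rw [h0, h2, h3, h4]
  have hp := phi0_mul_sqrt
  linear_combination (-s / 2) * hp

lemma exp_neg_le_poly {u : ℝ} (hu : 0 ≤ u) :
    Real.exp (-u) ≤ 1 - u + u ^ 2 / 2 - u ^ 3 / 6 + u ^ 4 / 24 := by
  have h1 : 1 + u + u ^ 2 / 2 + u ^ 3 / 6 + u ^ 4 / 24 ≤ Real.exp u := by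
    have := Real.sum_le_exp_of_nonneg hu 5
    simp only [Finset.sum_range_succ, Finset.sum_range_zero, Nat.factorial] at this
    norm_num at this
    linarith
  have hpos : 0 < 1 + u + u ^ 2 / 2 + u ^ 3 / 6 + u ^ 4 / 24 := by positivity
  rw [Real.exp_neg]
  have h2 : (Real.exp u)⁻¹ ≤ (1 + u + u ^ 2 / 2 + u ^ 3 / 6 + u ^ 4 / 24)⁻¹ := inv_anti₀ hpos h1
  have h3 : (1 + u + u ^ 2 / 2 + u ^ 3 / 6 + u ^ 4 / 24)⁻¹
      ≤ 1 - u + u ^ 2 / 2 - u ^ 3 / 6 + u ^ 4 / 24 := by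
    rw [inv_le_iff_one_le_mul₀ hpos]
    have e : (1 - u + u ^ 2 / 2 - u ^ 3 / 6 + u ^ 4 / 24)
        * (1 + u + u ^ 2 / 2 + u ^ 3 / 6 + u ^ 4 / 24) = 1 + u ^ 6 / 72 + u ^ 8 / 576 := by ring
    rw [e]
    have := pow_nonneg hu 6
    have := pow_nonneg hu 8
    linarith
  linarith

/-- Polynomial upper bound for `hfun` on `[0, ∞)`. -/
lemma hfun_le_poly {s : ℝ} (hs : 0 ≤ s) :
    hfun s ≤ phi0 * (1 + s ^ 2 / 2 - s ^ 4 / 24 + s ^ 6 / 240 - s ^ 8 / 2688 + s ^ 10 / 34560)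
      - s / 2 := by
  rw [hfun_eq hs]
  have hcont1 : Continuous fun x : ℝ => (s - x) * Real.exp (-(x ^ 2 / 2)) := by fun_prop
  have hcont2 : Continuous fun x : ℝ =>
      (s - x) * (1 - x ^ 2 / 2 + x ^ 4 / 8 - x ^ 6 / 48 + x ^ 8 / 384) := by fun_prop
  have hint : (∫ x in (0 : ℝ)..s, (s - x) * Real.exp (-(x ^ 2 / 2)))
      ≤ (∫ x in (0 : ℝ)..s, (s - x) * (1 - x ^ 2 / 2 + x ^ 4 / 8 - x ^ 6 / 48 + x ^ 8 / 384)) := by
    apply intervalIntegral.integral_mono_on hs (hcont1.intervalIntegrable _ _)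
      (hcont2.intervalIntegrable _ _)
    intro x hx
    have hx0 : 0 ≤ s - x := by linarith [hx.2]
    have h := exp_neg_le_poly (u := x ^ 2 / 2) (by positivity)
    have e : 1 - x ^ 2 / 2 + (x ^ 2 / 2) ^ 2 / 2 - (x ^ 2 / 2) ^ 3 / 6 + (x ^ 2 / 2) ^ 4 / 24
        = 1 - x ^ 2 / 2 + x ^ 4 / 8 - x ^ 6 / 48 + x ^ 8 / 384 := by ring
    rw [e] at h
    exact mul_le_mul_of_nonneg_left h hx0
  have hval : (∫ x in (0 : ℝ)..s,
        (s - x) * (1 - x ^ 2 / 2 + x ^ 4 / 8 - x ^ 6 / 48 + x ^ 8 / 384))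
      = s ^ 2 / 2 - s ^ 4 / 24 + s ^ 6 / 240 - s ^ 8 / 2688 + s ^ 10 / 34560 := by
    have hderiv : ∀ x ∈ uIcc (0 : ℝ) s, HasDerivAt
        (fun x : ℝ => s * (x - x ^ 3 / 6 + x ^ 5 / 40 - x ^ 7 / 336 + x ^ 9 / 3456)
          - (x ^ 2 / 2 - x ^ 4 / 8 + x ^ 6 / 48 - x ^ 8 / 384 + x ^ 10 / 3840))
        ((s - x) * (1 - x ^ 2 / 2 + x ^ 4 / 8 - x ^ 6 / 48 + x ^ 8 / 384)) x := by
      intro x _
      have hp : ∀ n : ℕ, HasDerivAt (fun y : ℝ => y ^ n) ((n : ℝ) * x ^ (n - 1)) x :=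
        fun n => hasDerivAt_pow n x
      have hA := ((((hasDerivAt_id x).sub ((hp 3).div_const 6)).add ((hp 5).div_const 40)).sub
        ((hp 7).div_const 336)).add ((hp 9).div_const 3456)
      have hB := (((((hp 2).div_const 2).sub ((hp 4).div_const 8)).add ((hp 6).div_const 48)).sub
        ((hp 8).div_const 384)).add ((hp 10).div_const 3840)
      have hC := (hA.const_mul s).sub hB
      exact hC.congr_deriv (by norm_num; ring)
    rw [intervalIntegral.integral_eq_sub_of_hasDerivAt hderiv (hcont2.intervalIntegrable _ _)]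
    ring
  rw [hval] at hint
  have hp := phi0_pos
  nlinarith [mul_le_mul_of_nonneg_left hint hp.le]

end Vale.Agent.Lib.P226
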